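import Mathlib

/-!
Taylor coefficients at the origin, for the work on Brennan's conjecture.
-/

namespace Vale.Agent.P142

/-- The `n`-th Taylor coefficient of `h` at `0`. -/
noncomputable def cf (h : ℂ → ℂ) (n : ℕ) : ℂ := iteratedDeriv n h 0 / (n.factorial : ℂ)

end Vale.Agent.P142
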