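import Mathlib
import Vale.Agent.P142.Basic

/-!
# The weighted area theorem for univalent functions on the disc

Main results:
* `deriv_ne_zero_of_injOn`: a univalent function has nowhere vanishing derivative;
* `area_theorem`: if `f` is univalent on the unit disc, `f 0 = 0`, and `Q (1 / f z)` is
  `∑ aₗ z⁻ˡ + h z`, then `∑ k ‖bₖ‖² ≤ ∑ l ‖aₗ‖²`.

The proof uses Green's formula in polar coordinates only. The map `f` is continued from a small
circle to a bijection `Φ` of `ℂ`, equal to a linear map outside a slightly larger circle, so that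
neither winding numbers nor the Jordan curve theorem are needed.
-/

open Complex MeasureTheory Set Filter Topology intervalIntegral
open scoped Real ComplexConjugate

noncomputable section

namespace Vale.Agent.P142


/-! ### Derivative of an injective holomorphic function -/

theorem deriv_ne_zero_of_injOn {f : ℂ → ℂ} {U : Set ℂ} (hU : IsOpen U)
    (hf : DifferentiableOn ℂ f U) (hinj : Set.InjOn f U) : ∀ z ∈ U, deriv f z ≠ 0 := by
  intro z₀ hz₀ hd
  have hUn : U ∈ 𝓝 z₀ := hU.mem_nhds hz₀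
  have han : AnalyticAt ℂ (fun z => f z - f z₀) z₀ :=
    ((hf.analyticAt hUn).sub analyticAt_const)
  have hnz : ¬ ∀ᶠ z in 𝓝 z₀, f z - f z₀ = 0 := by
    intro hev
    have h2 : ∀ᶠ z in 𝓝[≠] z₀, z ∈ U ∧ f z - f z₀ = 0 ∧ z ≠ z₀ := by
      filter_upwards [nhdsWithin_le_nhds hUn, nhdsWithin_le_nhds hev,
        self_mem_nhdsWithin] with z h1 h2 h3 using ⟨h1, h2, h3⟩
    obtain ⟨z, hzU, hz0, hzne⟩ := h2.exists
    exact hzne (hinj hzU hz₀ (sub_eq_zero.mp hz0))
  obtain ⟨n, G, hGa, hG0, hG⟩ := han.exists_eventuallyEq_pow_smul_nonzero_iff.mpr hnz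
  have hGz : ∀ᶠ z in 𝓝 z₀, f z - f z₀ = (z - z₀) ^ n * G z := by
    filter_upwards [hG] with z hz; simpa using hz
  have hn : 2 ≤ n := by
    by_contra hn
    interval_cases n
    · have := hGz.self_of_nhds; simp at this; exact hG0 this.symm
    · have h1 : HasDerivAt (fun z => (z - z₀) ^ 1 * G z) (G z₀) z₀ := by
        simpa using ((hasDerivAt_id z₀).sub_const z₀).fun_pow 1 |>.fun_mul
          hGa.differentiableAt.hasDerivAt
      have h2 : HasDerivAt (fun z => f z - f z₀) (G z₀) z₀ :=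
        h1.congr_of_eventuallyEq hGz
      have h3 : HasDerivAt f (G z₀) z₀ := by simpa using h2.add_const (f z₀)
      exact hG0 (h3.deriv.symm.trans hd)
  have hn0 : (n : ℂ) ≠ 0 := by exact_mod_cast (by omega : n ≠ 0)
  set φ : ℂ → ℂ := fun z => (z - z₀) * Complex.exp (Complex.log (G z / G z₀) / n) with hφ
  have hLa : HasStrictDerivAt (fun z => Complex.exp (Complex.log (G z / G z₀) / n))
      (deriv (fun z => Complex.exp (Complex.log (G z / G z₀) / n)) z₀) z₀ := by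
    apply AnalyticAt.hasStrictDerivAt
    refine analyticAt_cexp.comp (AnalyticAt.div ?_ analyticAt_const hn0)
    refine AnalyticAt.fun_comp (analyticAt_clog ?_) (hGa.div analyticAt_const hG0)
    simp [div_self hG0, Complex.one_mem_slitPlane]
  have hφd : HasStrictDerivAt φ 1 z₀ := by
    have h0 : HasStrictDerivAt (fun z : ℂ => z - z₀) 1 z₀ := (hasStrictDerivAt_id z₀).sub_const z₀
    have := h0.fun_mul hLa
    simpa [hφ, div_self hG0] using! this
  have hφ0 : φ z₀ = 0 := by simp [hφ]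
  have hmap := hφd.map_nhds_eq one_ne_zero
  rw [hφ0] at hmap
  have hpow : ∀ᶠ z in 𝓝 z₀, z ∈ U ∧ φ z ^ n * G z₀ = f z - f z₀ := by
    filter_upwards [hUn, hGz, hGa.continuousAt.eventually_ne hG0] with z hzU hz hGne
    refine ⟨hzU, ?_⟩
    rw [hz, hφ]
    simp only
    rw [mul_pow, ← Complex.exp_nat_mul, mul_div_cancel₀ _ hn0,
      Complex.exp_log (div_ne_zero hGne hG0), mul_assoc, div_mul_cancel₀ _ hG0]
  have himg : φ '' {z | z ∈ U ∧ φ z ^ n * G z₀ = f z - f z₀} ∈ 𝓝 (0 : ℂ) := by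
    rw [← hmap]; exact Filter.image_mem_map hpow
  obtain ⟨ζ, hζ⟩ : ∃ ζ : ℂ, IsPrimitiveRoot ζ n :=
    ⟨_, Complex.isPrimitiveRoot_exp n (by omega)⟩
  have hζ1 : ζ ≠ 1 := hζ.ne_one (by omega)
  have hζt : Tendsto (fun w => ζ * w) (𝓝 (0 : ℂ)) (𝓝 0) := by
    simpa using ((continuous_const_mul ζ).tendsto (0 : ℂ))
  have h2 : ∀ᶠ w in 𝓝[≠] (0 : ℂ), w ∈ φ '' {z | z ∈ U ∧ φ z ^ n * G z₀ = f z - f z₀} ∧
      ζ * w ∈ φ '' {z | z ∈ U ∧ φ z ^ n * G z₀ = f z - f z₀} ∧ w ≠ 0 := by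
    filter_upwards [nhdsWithin_le_nhds himg, nhdsWithin_le_nhds (hζt himg),
      self_mem_nhdsWithin] with w h1 h2 h3 using ⟨h1, h2, h3⟩
  obtain ⟨w, ⟨a, ⟨haU, haf⟩, hφa⟩, ⟨b, ⟨hbU, hbf⟩, hφb⟩, hw⟩ := h2.exists
  have hab : f a = f b := by
    have : f a - f z₀ = f b - f z₀ := by
      rw [← haf, ← hbf, hφa, hφb, mul_pow, hζ.pow_eq_one, one_mul]
    simpa using this
  have hwz : ζ * w = w := by rw [← hφb, ← hφa, hinj haU hbU hab]
  exact hζ1 (mul_left_eq_self₀.mp hwz |>.resolve_right hw)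

/-! ### Green's formula in polar coordinates -/

/-- Weighted enclosed-area functional `∫ Im (conj T(W) · ∂θ T(W)) dθ`. -/
def gfun (T : ℂ → ℂ) (W Wt : ℝ → ℝ → ℂ) (ρ : ℝ) : ℝ :=
  ∫ θ in (-π)..π, (conj (T (W ρ θ)) * (deriv T (W ρ θ) * Wt ρ θ)).im

theorem polar_green {T : ℂ → ℂ} {V : Set ℂ} (hV : IsOpen V) (hT : DifferentiableOn ℂ T V)
    {W Wr Wt Wrt : ℝ → ℝ → ℂ} {p q : ℝ} (hpq : p ≤ q)
    (hmem : ∀ ρ ∈ Icc p q, ∀ θ, W ρ θ ∈ V)
    (hWr : ∀ ρ ∈ Icc p q, ∀ θ, HasDerivAt (fun s => W s θ) (Wr ρ θ) ρ)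
    (hWt : ∀ ρ ∈ Icc p q, ∀ θ, HasDerivAt (fun s => W ρ s) (Wt ρ θ) θ)
    (hWrt : ∀ ρ ∈ Icc p q, ∀ θ, HasDerivAt (fun s => Wt s θ) (Wrt ρ θ) ρ)
    (hWtr : ∀ ρ ∈ Icc p q, ∀ θ, HasDerivAt (fun s => Wr ρ s) (Wrt ρ θ) θ)
    (cW : ContinuousOn (Function.uncurry W) (Icc p q ×ˢ univ))
    (cWr : ContinuousOn (Function.uncurry Wr) (Icc p q ×ˢ univ))
    (cWt : ContinuousOn (Function.uncurry Wt) (Icc p q ×ˢ univ))
    (cWrt : ContinuousOn (Function.uncurry Wrt) (Icc p q ×ˢ univ))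
    (hper : ∀ ρ, W ρ π = W ρ (-π)) (hperr : ∀ ρ, Wr ρ π = Wr ρ (-π)) :
    ∫ ρ in p..q, ∫ θ in (-π)..π,
        2 * (‖deriv T (W ρ θ)‖ ^ 2 * (conj (Wr ρ θ) * Wt ρ θ).im)
      = gfun T W Wt q - gfun T W Wt p := by
  have hT' : DifferentiableOn ℂ (deriv T) V := hT.deriv hV
  have cT : ∀ {S : ℂ → ℂ}, ContinuousOn S V →
      ContinuousOn (fun x : ℝ × ℝ => S (W x.1 x.2)) (Icc p q ×ˢ univ) := fun hS =>
    hS.comp cW fun x hx => hmem x.1 hx.1 x.2
  have c0 := cT hT.continuousOn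
  have c1 := cT hT'.continuousOn
  have c2 := cT (hT'.deriv hV).continuousOn
  -- the two boundary integrands and their derivatives
  set A : ℝ → ℝ → ℝ := fun ρ θ => (conj (T (W ρ θ)) * (deriv T (W ρ θ) * Wt ρ θ)).im with hA
  set B : ℝ → ℝ → ℝ := fun ρ θ => (conj (T (W ρ θ)) * (deriv T (W ρ θ) * Wr ρ θ)).im with hB
  set N : ℝ → ℝ → ℂ := fun ρ θ => deriv (deriv T) (W ρ θ) * Wr ρ θ * Wt ρ θ +
    deriv T (W ρ θ) * Wrt ρ θ with hN
  set A' : ℝ → ℝ → ℝ := fun ρ θ => (conj (deriv T (W ρ θ) * Wr ρ θ) *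
    (deriv T (W ρ θ) * Wt ρ θ) + conj (T (W ρ θ)) * N ρ θ).im with hA'
  set B' : ℝ → ℝ → ℝ := fun ρ θ => (conj (deriv T (W ρ θ) * Wt ρ θ) *
    (deriv T (W ρ θ) * Wr ρ θ) + conj (T (W ρ θ)) * N ρ θ).im with hB'
  set P : ℝ → ℝ → ℝ := fun ρ θ =>
    2 * (‖deriv T (W ρ θ)‖ ^ 2 * (conj (Wr ρ θ) * Wt ρ θ).im) with hP
  have hAB : ∀ ρ θ, A' ρ θ - B' ρ θ = P ρ θ := by
    intro ρ θ
    simp only [hA', hB', hP, Complex.sq_norm, Complex.normSq_apply, Complex.add_im,
      Complex.mul_im, Complex.mul_re, Complex.conj_re, Complex.conj_im, map_mul]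
    ring
  have hTW : ∀ {S : ℂ → ℂ}, DifferentiableOn ℂ S V → ∀ {w : ℝ → ℂ} {w' : ℂ} {s : ℝ},
      HasDerivAt w w' s → w s ∈ V → HasDerivAt (fun u => S (w u)) (deriv S (w s) * w') s := by
    intro S hS w w' s hw hmemS
    exact ((hS.differentiableAt (hV.mem_nhds hmemS)).hasDerivAt).comp s hw
  have dA : ∀ ρ ∈ Icc p q, ∀ θ, HasDerivAt (fun s => A s θ) (A' ρ θ) ρ := by
    intro ρ hρ θ
    have h0 := hTW hT (hWr ρ hρ θ) (hmem ρ hρ θ)
    have h1 := hTW hT' (hWr ρ hρ θ) (hmem ρ hρ θ)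
    have h := Complex.imCLM.hasFDerivAt.comp_hasDerivAt ρ
      (((Complex.conjCLE.hasFDerivAt.comp_hasDerivAt ρ h0)).mul (h1.mul (hWrt ρ hρ θ)))
    refine HasDerivAt.congr_deriv h ?_
    simp [hA', hN]
  have dB : ∀ ρ ∈ Icc p q, ∀ θ, HasDerivAt (fun s => B ρ s) (B' ρ θ) θ := by
    intro ρ hρ θ
    have h0 := hTW hT (hWt ρ hρ θ) (hmem ρ hρ θ)
    have h1 := hTW hT' (hWt ρ hρ θ) (hmem ρ hρ θ)
    have h := Complex.imCLM.hasFDerivAt.comp_hasDerivAt θ
      (((Complex.conjCLE.hasFDerivAt.comp_hasDerivAt θ h0)).mul (h1.mul (hWtr ρ hρ θ)))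
    refine HasDerivAt.congr_deriv h ?_
    simp [hB', hN]; ring
  have cA' : ContinuousOn (fun x : ℝ × ℝ => A' x.1 x.2) (Icc p q ×ˢ univ) :=
    Complex.continuous_im.comp_continuousOn
      (((Complex.continuous_conj.comp_continuousOn (c1.mul cWr)).mul (c1.mul cWt)).add
        ((Complex.continuous_conj.comp_continuousOn c0).mul
          (((c2.mul cWr).mul cWt).add (c1.mul cWrt))))
  have cB' : ContinuousOn (fun x : ℝ × ℝ => B' x.1 x.2) (Icc p q ×ˢ univ) :=
    Complex.continuous_im.comp_continuousOn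
      (((Complex.continuous_conj.comp_continuousOn (c1.mul cWt)).mul (c1.mul cWr)).add
        ((Complex.continuous_conj.comp_continuousOn c0).mul
          (((c2.mul cWr).mul cWt).add (c1.mul cWrt))))
  have cA : ContinuousOn (fun x : ℝ × ℝ => A x.1 x.2) (Icc p q ×ˢ univ) :=
    Complex.continuous_im.comp_continuousOn
      ((Complex.continuous_conj.comp_continuousOn c0).mul (c1.mul cWt))
  have slice : ∀ {g : ℝ × ℝ → ℝ}, ContinuousOn g (Icc p q ×ˢ univ) → ∀ ρ ∈ Icc p q,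
      Continuous fun θ : ℝ => g (ρ, θ) := fun hg ρ hρ =>
    hg.comp_continuous (by fun_prop) fun θ => ⟨hρ, mem_univ _⟩
  have key : ∀ ρ ∈ Icc p q, ∫ θ in (-π)..π, P ρ θ = ∫ θ in (-π)..π, A' ρ θ := by
    intro ρ hρ
    have hBint : ∫ θ in (-π)..π, B' ρ θ = 0 := by
      rw [integral_eq_sub_of_hasDerivAt (f := B ρ) (fun θ _ => dB ρ hρ θ)
        ((slice cB' ρ hρ).intervalIntegrable _ _)]
      simp [hB, hper, hperr]
    calc ∫ θ in (-π)..π, P ρ θ = ∫ θ in (-π)..π, (A' ρ θ - B' ρ θ) := by simp only [hAB]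
      _ = _ := by
          rw [integral_sub ((slice cA' ρ hρ).intervalIntegrable _ _)
            ((slice cB' ρ hρ).intervalIntegrable _ _), hBint, sub_zero]
  have e1 : ∫ ρ in p..q, ∫ θ in (-π)..π, P ρ θ = ∫ ρ in p..q, ∫ θ in (-π)..π, A' ρ θ := by
    apply integral_congr
    rw [uIcc_of_le hpq]
    exact key
  rw [show (∫ ρ in p..q, ∫ θ in (-π)..π,
      2 * (‖deriv T (W ρ θ)‖ ^ 2 * (conj (Wr ρ θ) * Wt ρ θ).im)) =
      ∫ ρ in p..q, ∫ θ in (-π)..π, P ρ θ from rfl, e1]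
  have hπ : -π ≤ π := by linarith [Real.pi_pos]
  have hint : IntegrableOn (fun x : ℝ × ℝ => A' x.1 x.2) (Ioc p q ×ˢ Ioc (-π) π)
      (volume.prod volume) := by
    refine ((cA'.mono (prod_mono_right (subset_univ (Icc (-π) π)))).integrableOn_compact
      (isCompact_Icc.prod isCompact_Icc)).mono_set (prod_mono Ioc_subset_Icc_self Ioc_subset_Icc_self)
  have e2 : ∫ ρ in p..q, ∫ θ in (-π)..π, A' ρ θ = ∫ θ in (-π)..π, ∫ ρ in p..q, A' ρ θ := by
    simp only [integral_of_le hpq, integral_of_le hπ]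
    refine integral_integral_swap ?_
    rw [Measure.prod_restrict]
    exact hint
  rw [e2]
  unfold gfun
  rw [← integral_sub ((slice cA q (right_mem_Icc.mpr hpq)).intervalIntegrable _ _)
    ((slice cA p (left_mem_Icc.mpr hpq)).intervalIntegrable _ _)]
  apply integral_congr
  intro θ _
  show ∫ ρ in p..q, A' ρ θ = A q θ - A p θ
  refine integral_eq_sub_of_hasDerivAt (f := fun ρ => A ρ θ) (fun ρ hρ => ?_) ?_
  · rw [uIcc_of_le hpq] at hρ; exact dA ρ hρ θ
  · refine ContinuousOn.intervalIntegrable ?_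
    rw [uIcc_of_le hpq]
    have hpair : ContinuousOn (fun ρ : ℝ => (ρ, θ)) (Icc p q) :=
      (continuous_id.prodMk continuous_const).continuousOn
    have hcomp := ContinuousOn.comp (f := fun ρ : ℝ => (ρ, θ)) cA' hpair
      (fun ρ hρ => ⟨hρ, mem_univ _⟩)
    exact hcomp

/-! ### The family of maps `c z + (α + β ‖z‖) k z` in polar coordinates -/

/-- Polar coordinates. -/
def pz (ρ θ : ℝ) : ℂ := ρ * Complex.exp (θ * I)

def Wm (c : ℂ) (α β : ℝ) (k : ℂ → ℂ) (ρ θ : ℝ) : ℂ :=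
  c * pz ρ θ + ((α + β * ρ : ℝ) : ℂ) * k (pz ρ θ)

def Wmr (c : ℂ) (α β : ℝ) (k : ℂ → ℂ) (ρ θ : ℝ) : ℂ :=
  c * Complex.exp (θ * I) + ((β : ℂ) * k (pz ρ θ) +
    ((α + β * ρ : ℝ) : ℂ) * (deriv k (pz ρ θ) * Complex.exp (θ * I)))

def Wmt (c : ℂ) (α β : ℝ) (k : ℂ → ℂ) (ρ θ : ℝ) : ℂ :=
  I * pz ρ θ * (c + ((α + β * ρ : ℝ) : ℂ) * deriv k (pz ρ θ))

def Wmrt (c : ℂ) (α β : ℝ) (k : ℂ → ℂ) (ρ θ : ℝ) : ℂ :=
  I * Complex.exp (θ * I) * (c + ((α + β * ρ : ℝ) : ℂ) * deriv k (pz ρ θ)) +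
    I * pz ρ θ * ((β : ℂ) * deriv k (pz ρ θ) +
      ((α + β * ρ : ℝ) : ℂ) * (deriv (deriv k) (pz ρ θ) * Complex.exp (θ * I)))

theorem norm_pz {ρ : ℝ} (hρ : 0 ≤ ρ) (θ : ℝ) : ‖pz ρ θ‖ = ρ := by
  simp [pz, Complex.norm_exp_ofReal_mul_I, abs_of_nonneg hρ]

theorem arg_pz {ρ : ℝ} (hρ : 0 < ρ) {θ : ℝ} (hθ : θ ∈ Ioc (-π) π) : arg (pz ρ θ) = θ := by
  rw [pz, Complex.exp_mul_I]; exact arg_mul_cos_add_sin_mul_I hρ hθ

theorem pz_pi (ρ : ℝ) : pz ρ π = pz ρ (-π) := by
  simp [pz, Complex.exp_pi_mul_I, Complex.exp_neg]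

theorem exp_pi_I_eq : Complex.exp ((π : ℝ) * I) = Complex.exp (((-π : ℝ) : ℂ) * I) := by
  simp [Complex.exp_pi_mul_I, Complex.exp_neg]

theorem continuous_pz : Continuous (fun x : ℝ × ℝ => pz x.1 x.2) := by
  unfold pz; fun_prop

theorem hasDerivAt_exp_mul_I (θ : ℝ) :
    HasDerivAt (fun s : ℝ => Complex.exp ((s : ℂ) * I)) (I * Complex.exp (θ * I)) θ := by
  have h := (((hasDerivAt_id (θ : ℂ)).mul_const I).comp_ofReal).cexp
  simpa [mul_comm] using h

theorem hasDerivAt_pz_fst (ρ θ : ℝ) :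
    HasDerivAt (fun s => pz s θ) (Complex.exp (θ * I)) ρ := by
  have h := (Complex.ofRealCLM.hasDerivAt (x := ρ)).mul_const (Complex.exp (θ * I))
  simpa [pz] using h

theorem hasDerivAt_pz_snd (ρ θ : ℝ) :
    HasDerivAt (fun s => pz ρ s) (I * pz ρ θ) θ := by
  have h := (hasDerivAt_exp_mul_I θ).const_mul (ρ : ℂ)
  refine h.congr_deriv ?_
  simp [pz]; ring

theorem hasDerivAt_coef (α β ρ : ℝ) :
    HasDerivAt (fun s : ℝ => ((α + β * s : ℝ) : ℂ)) (β : ℂ) ρ := by
  have h := (((hasDerivAt_id ρ).const_mul β).const_add α).ofReal_comp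
  simpa using h

section Wm

variable {U : Set ℂ} {k : ℂ → ℂ} {c : ℂ} {α β p q : ℝ}

theorem wm_derivs (hU : IsOpen U) (hk : DifferentiableOn ℂ k U) {ρ θ : ℝ}
    (hz : pz ρ θ ∈ U) :
    HasDerivAt (fun s => Wm c α β k s θ) (Wmr c α β k ρ θ) ρ ∧
    HasDerivAt (fun s => Wm c α β k ρ s) (Wmt c α β k ρ θ) θ ∧
    HasDerivAt (fun s => Wmt c α β k s θ) (Wmrt c α β k ρ θ) ρ ∧
    HasDerivAt (fun s => Wmr c α β k ρ s) (Wmrt c α β k ρ θ) θ := by
  have hk0 := (hk.differentiableAt (hU.mem_nhds hz)).hasDerivAt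
  have hk1 := ((hk.deriv hU).differentiableAt (hU.mem_nhds hz)).hasDerivAt
  have zr := hasDerivAt_pz_fst ρ θ
  have zt := hasDerivAt_pz_snd ρ θ
  have kr := hk0.comp ρ zr
  have kt := hk0.comp θ zt
  have k1r := hk1.comp ρ zr
  have k1t := hk1.comp θ zt
  have hc := hasDerivAt_coef α β ρ
  refine ⟨?_, ?_, ?_, ?_⟩
  · exact (zr.const_mul c).add (hc.mul kr)
  · refine ((zt.const_mul c).add (kt.const_mul _)).congr_deriv ?_
    simp [Wmt]; ring
  · refine ((zr.const_mul I).mul ((hc.mul k1r).const_add c)).congr_deriv ?_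
    simp [Wmrt]
  · refine (((hasDerivAt_exp_mul_I θ).const_mul c).add ((kt.const_mul (β : ℂ)).add
      ((k1t.mul (hasDerivAt_exp_mul_I θ)).const_mul _))).congr_deriv ?_
    simp [Wmrt]; ring

theorem wm_continuousOn (hU : IsOpen U) (hk : DifferentiableOn ℂ k U)
    (hmem : ∀ ρ ∈ Icc p q, ∀ θ, pz ρ θ ∈ U) :
    ContinuousOn (Function.uncurry (Wm c α β k)) (Icc p q ×ˢ univ) ∧
    ContinuousOn (Function.uncurry (Wmr c α β k)) (Icc p q ×ˢ univ) ∧
    ContinuousOn (Function.uncurry (Wmt c α β k)) (Icc p q ×ˢ univ) ∧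
    ContinuousOn (Function.uncurry (Wmrt c α β k)) (Icc p q ×ˢ univ) := by
  have cT : ∀ {S : ℂ → ℂ}, ContinuousOn S U →
      ContinuousOn (fun x : ℝ × ℝ => S (pz x.1 x.2)) (Icc p q ×ˢ univ) := fun hS =>
    hS.comp continuous_pz.continuousOn fun x hx => hmem x.1 hx.1 x.2
  have k0 := cT hk.continuousOn
  have k1 := cT (hk.deriv hU).continuousOn
  have k2 := cT ((hk.deriv hU).deriv hU).continuousOn
  have cz : ContinuousOn (fun x : ℝ × ℝ => pz x.1 x.2) (Icc p q ×ˢ univ) :=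
    continuous_pz.continuousOn
  have cr : ContinuousOn (fun x : ℝ × ℝ => ((α + β * x.1 : ℝ) : ℂ)) (Icc p q ×ˢ univ) :=
    (Complex.continuous_ofReal.comp (by fun_prop)).continuousOn
  have ce : ContinuousOn (fun x : ℝ × ℝ => Complex.exp (x.2 * I)) (Icc p q ×ˢ univ) :=
    (Complex.continuous_exp.comp
      ((Complex.continuous_ofReal.comp continuous_snd).mul continuous_const)).continuousOn
  have cc : ∀ a : ℂ, ContinuousOn (fun _ : ℝ × ℝ => a) (Icc p q ×ˢ univ) := fun a =>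
    continuousOn_const
  exact ⟨((cc c).mul cz).add (cr.mul k0),
    ((cc c).mul ce).add (((cc _).mul k0).add (cr.mul (k1.mul ce))),
    ((cc I).mul cz).mul ((cc c).add (cr.mul k1)),
    (((cc I).mul ce).mul ((cc c).add (cr.mul k1))).add
      (((cc I).mul cz).mul (((cc _).mul k1).add (cr.mul (k2.mul ce))))⟩

theorem wm_green {T : ℂ → ℂ} {V : Set ℂ} (hU : IsOpen U) (hk : DifferentiableOn ℂ k U)
    (hV : IsOpen V) (hT : DifferentiableOn ℂ T V) (hpq : p ≤ q)
    (hmem : ∀ ρ ∈ Icc p q, ∀ θ, pz ρ θ ∈ U)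
    (hmemV : ∀ ρ ∈ Icc p q, ∀ θ, Wm c α β k ρ θ ∈ V) :
    ∫ ρ in p..q, ∫ θ in (-π)..π, 2 * (‖deriv T (Wm c α β k ρ θ)‖ ^ 2 *
        (conj (Wmr c α β k ρ θ) * Wmt c α β k ρ θ).im)
      = gfun T (Wm c α β k) (Wmt c α β k) q - gfun T (Wm c α β k) (Wmt c α β k) p := by
  obtain ⟨c0, c1, c2, c3⟩ := wm_continuousOn (c := c) (α := α) (β := β) hU hk hmem
  refine polar_green hV hT hpq hmemV (fun ρ hρ θ => (wm_derivs hU hk (hmem ρ hρ θ)).1)
    (fun ρ hρ θ => (wm_derivs hU hk (hmem ρ hρ θ)).2.1)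
    (fun ρ hρ θ => (wm_derivs hU hk (hmem ρ hρ θ)).2.2.1)
    (fun ρ hρ θ => (wm_derivs hU hk (hmem ρ hρ θ)).2.2.2) c0 c1 c2 c3
    (fun ρ => by simp [Wm, pz_pi]) (fun ρ => ?_)
  simp only [Wmr, pz_pi, exp_pi_I_eq]

theorem wm_jacobian (c : ℂ) (α β : ℝ) (k : ℂ → ℂ) (ρ θ : ℝ) :
    (conj (Wmr c α β k ρ θ) * Wmt c α β k ρ θ).im =
      ρ * ‖c + ((α + β * ρ : ℝ) : ℂ) * deriv k (pz ρ θ)‖ ^ 2 +
      (conj ((β : ℂ) * k (pz ρ θ)) *
        (pz ρ θ * (c + ((α + β * ρ : ℝ) : ℂ) * deriv k (pz ρ θ)))).re := by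
  set A := c + ((α + β * ρ : ℝ) : ℂ) * deriv k (pz ρ θ) with hA
  have e1 : Wmr c α β k ρ θ = A * Complex.exp (θ * I) + (β : ℂ) * k (pz ρ θ) := by
    simp [Wmr, hA]; ring
  have e2 : conj (Wmr c α β k ρ θ) * Wmt c α β k ρ θ =
      ((ρ * ‖A‖ ^ 2 : ℝ) : ℂ) * I + (conj ((β : ℂ) * k (pz ρ θ)) * (pz ρ θ * A)) * I := by
    have h1 : conj (Complex.exp (θ * I)) * Complex.exp (θ * I) = 1 := by
      rw [← Complex.exp_conj, ← Complex.exp_add]; simp [Complex.conj_ofReal]
    have h2 : conj A * A = ((‖A‖ ^ 2 : ℝ) : ℂ) := by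
      rw [Complex.conj_mul', Complex.ofReal_pow]
    rw [e1, Wmt, ← hA, map_add, map_mul, Complex.ofReal_mul, ← h2]
    simp only [pz]
    linear_combination (conj A * A * (ρ : ℂ) * I) * h1
  rw [e2]
  simp [-Complex.ofReal_pow]

theorem hasFDerivAt_wm (hU : IsOpen U) (hk : DifferentiableOn ℂ k U) {x : ℂ}
    (hz : pz x.re x.im ∈ U) :
    HasFDerivAt (fun y : ℂ => Wm c α β k y.re y.im)
      (Complex.reCLM.smulRight (Wmr c α β k x.re x.im) +
        Complex.imCLM.smulRight (Wmt c α β k x.re x.im)) x := by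
  have hre : HasFDerivAt (fun y : ℂ => (y.re : ℂ))
      (Complex.ofRealCLM.comp Complex.reCLM) x :=
    Complex.ofRealCLM.hasFDerivAt.comp x Complex.reCLM.hasFDerivAt
  have him := HasFDerivAt.comp (f := fun y : ℂ => y.im) x
    (hasDerivAt_exp_mul_I x.im).hasFDerivAt Complex.imCLM.hasFDerivAt
  have hzf : HasFDerivAt (fun y : ℂ => pz y.re y.im) _ x := hre.mul him
  have hcoef : HasFDerivAt (fun y : ℂ => ((α + β * y.re : ℝ) : ℂ)) _ x :=
    HasFDerivAt.comp (f := fun y : ℂ => y.re) x (hasDerivAt_coef α β x.re).hasFDerivAt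
      Complex.reCLM.hasFDerivAt
  have hk0 := ((hk.differentiableAt (hU.mem_nhds hz)).hasDerivAt.hasFDerivAt.restrictScalars ℝ).comp
    x hzf
  refine ((hzf.const_mul c).add (hcoef.mul hk0)).congr_fderiv ?_
  ext v
  simp [Wmr, Wmt, pz]
  ring

end Wm

theorem det_smulRight (a b : ℂ) :
    (Complex.reCLM.smulRight a + Complex.imCLM.smulRight b).det = (conj a * b).im := by
  rw [ContinuousLinearMap.det, ← LinearMap.det_toMatrix Complex.basisOneI, Matrix.det_fin_two]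
  simp [LinearMap.toMatrix_apply, Complex.coe_basisOneI, Complex.coe_basisOneI_repr]
  ring

/-- The half open polar rectangle. -/
def rect (p q : ℝ) : Set ℂ := Ioc p q ×ℂ Ioc (-π) π

/-- The annulus `p < ‖z‖ ≤ q`. -/
def ann (p q : ℝ) : Set ℂ := {z : ℂ | p < ‖z‖ ∧ ‖z‖ ≤ q}

theorem measurableSet_rect (p q : ℝ) : MeasurableSet (rect p q) :=
  (measurableSet_Ioc.preimage Complex.measurable_re).inter
    (measurableSet_Ioc.preimage Complex.measurable_im)

theorem image_pz_rect {p : ℝ} (hp : 0 ≤ p) (q : ℝ) :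
    (fun x : ℂ => pz x.re x.im) '' rect p q = ann p q := by
  ext z
  constructor
  · rintro ⟨x, ⟨⟨h1, h2⟩, -⟩, rfl⟩
    show p < ‖pz x.re x.im‖ ∧ ‖pz x.re x.im‖ ≤ q
    rw [norm_pz (le_of_lt (lt_of_le_of_lt hp h1))]
    exact ⟨h1, h2⟩
  · intro hz
    refine ⟨⟨‖z‖, arg z⟩, ⟨hz, arg_mem_Ioc z⟩, ?_⟩
    simp [pz, norm_mul_exp_arg_mul_I]

/-- Change of variables for `Φ`, which is given by `Wm` on the annulus. -/
theorem image_integral {U : Set ℂ} {k : ℂ → ℂ} {c : ℂ} {α β p q : ℝ} {T : ℂ → ℂ} {V : Set ℂ}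
    {Φ : ℂ → ℂ}
    (hU : IsOpen U) (hk : DifferentiableOn ℂ k U) (hV : IsOpen V) (hT : DifferentiableOn ℂ T V)
    (hp : 0 < p) (hpq : p ≤ q) (hmem : ∀ ρ ∈ Icc p q, ∀ θ, pz ρ θ ∈ U)
    (hmemV : ∀ ρ ∈ Icc p q, ∀ θ, Wm c α β k ρ θ ∈ V)
    (hdet : ∀ ρ ∈ Icc p q, ∀ θ, 0 ≤ (conj (Wmr c α β k ρ θ) * Wmt c α β k ρ θ).im)
    (hΦ : ∀ x ∈ rect p q, Φ (pz x.re x.im) = Wm c α β k x.re x.im)
    (hinj : InjOn Φ (ann p q)) :
    MeasurableSet (Φ '' ann p q) ∧
    IntegrableOn (fun w => ‖deriv T w‖ ^ 2) (Φ '' ann p q) ∧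
    2 * ∫ w in Φ '' ann p q, ‖deriv T w‖ ^ 2 =
      gfun T (Wm c α β k) (Wmt c α β k) q - gfun T (Wm c α β k) (Wmt c α β k) p := by
  set w : ℂ → ℂ := fun y => Wm c α β k y.re y.im with hw
  set L : ℂ → ℂ →L[ℝ] ℂ := fun x => Complex.reCLM.smulRight (Wmr c α β k x.re x.im) +
    Complex.imCLM.smulRight (Wmt c α β k x.re x.im) with hL
  have hR : ∀ x ∈ rect p q, x.re ∈ Icc p q := fun x hx => Ioc_subset_Icc_self hx.1
  have hd : ∀ x ∈ rect p q, HasFDerivWithinAt w (L x) (rect p q) x := fun x hx =>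
    (hasFDerivAt_wm hU hk (hmem _ (hR x hx) _)).hasFDerivWithinAt
  have himg : Φ '' ann p q = w '' rect p q := by
    rw [← image_pz_rect hp.le q, image_image]
    exact image_congr hΦ
  have winj : InjOn w (rect p q) := by
    intro x hx y hy hxy
    have hx0 : 0 < x.re := hp.trans hx.1.1
    have hy0 : 0 < y.re := hp.trans hy.1.1
    have hpe : pz x.re x.im = pz y.re y.im := hinj
      (by rw [← image_pz_rect hp.le q]; exact mem_image_of_mem _ hx)
      (by rw [← image_pz_rect hp.le q]; exact mem_image_of_mem _ hy)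
      (by rw [hΦ x hx, hΦ y hy]; exact hxy)
    apply Complex.ext
    · have := congrArg norm hpe
      rwa [norm_pz hx0.le, norm_pz hy0.le] at this
    · have := congrArg arg hpe
      rwa [arg_pz hx0 hx.2, arg_pz hy0 hy.2] at this
  set G : ℝ × ℝ → ℝ := fun x => ‖deriv T (Wm c α β k x.1 x.2)‖ ^ 2 *
    (conj (Wmr c α β k x.1 x.2) * Wmt c α β k x.1 x.2).im with hG
  have cG : ContinuousOn G (Icc p q ×ˢ univ) := by
    obtain ⟨c0, c1, c2, -⟩ := wm_continuousOn (c := c) (α := α) (β := β) hU hk hmem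
    have c4 : ContinuousOn (fun x : ℝ × ℝ => deriv T (Wm c α β k x.1 x.2)) (Icc p q ×ˢ univ) :=
      (hT.deriv hV).continuousOn.comp c0 fun x hx => hmemV x.1 hx.1 x.2
    exact (c4.norm.pow 2).mul (Complex.continuous_im.comp_continuousOn
      ((Complex.continuous_conj.comp_continuousOn c1).mul c2))
  have hGi : IntegrableOn G (Ioc p q ×ˢ Ioc (-π) π) :=
    ((cG.mono (prod_mono_right (subset_univ (Icc (-π) π)))).integrableOn_compact
      (isCompact_Icc.prod isCompact_Icc)).mono_set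
      (prod_mono Ioc_subset_Icc_self Ioc_subset_Icc_self)
  have hmp := Complex.volume_preserving_equiv_real_prod
  have hemb := Complex.measurableEquivRealProd.measurableEmbedding
  have hpre : Complex.measurableEquivRealProd ⁻¹' (Ioc p q ×ˢ Ioc (-π) π) = rect p q := rfl
  have hcongr : EqOn (fun x => |(L x).det| • ‖deriv T (w x)‖ ^ 2)
      (fun x => G (Complex.measurableEquivRealProd x)) (rect p q) := by
    intro x hx
    simp only [hL, det_smulRight, abs_of_nonneg (hdet _ (hR x hx) _), smul_eq_mul]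
    rw [hG]; exact mul_comm _ _
  have hrect : IntegrableOn (fun x => G (Complex.measurableEquivRealProd x)) (rect p q) := by
    rw [← hpre]; exact (hmp.integrableOn_comp_preimage hemb).mpr hGi
  refine ⟨?_, ?_, ?_⟩
  · rw [himg]; exact measurable_image_of_fderivWithin (measurableSet_rect p q) hd winj
  · rw [himg, integrableOn_image_iff_integrableOn_abs_det_fderiv_smul volume
      (measurableSet_rect p q) hd winj]
    exact hrect.congr_fun hcongr.symm (measurableSet_rect p q)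
  · rw [← wm_green hU hk hV hT hpq hmem hmemV, himg,
      integral_image_eq_integral_abs_det_fderiv_smul volume (measurableSet_rect p q) hd winj,
      setIntegral_congr_fun (measurableSet_rect p q) hcongr, ← hpre,
      hmp.setIntegral_preimage_emb hemb, Measure.volume_eq_prod,
      setIntegral_prod _ (by rwa [← Measure.volume_eq_prod])]
    have hπ : -π ≤ π := by linarith [Real.pi_pos]
    rw [integral_of_le hpq, ← MeasureTheory.integral_const_mul]
    simp only [integral_of_le hπ, MeasureTheory.integral_const_mul, hG]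

/-! ### Extension of `f` and the sign of the functional -/

theorem gfun_nonpos {f : ℂ → ℂ} (hf : DifferentiableOn ℂ f (Metric.ball (0 : ℂ) 1)) (hinj : InjOn f (Metric.ball (0 : ℂ) 1))
    (hf0 : f 0 = 0) (Q : Polynomial ℂ) {r : ℝ} (hr0 : 0 < r) (hr1 : r < 1) :
    gfun (fun ζ => Q.eval ζ⁻¹) (Wm 0 1 0 f) (Wmt 0 1 0 f) r ≤ 0 := by
  set c := deriv f 0 with hc
  have hD : IsOpen (Metric.ball (0 : ℂ) 1) := Metric.isOpen_ball
  have h0D : (0 : ℂ) ∈ (Metric.ball (0 : ℂ) 1) := Metric.mem_ball_self one_pos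
  have hc0 : c ≠ 0 := deriv_ne_zero_of_injOn hD hf hinj 0 h0D
  have hcn : 0 < ‖c‖ := norm_pos_iff.mpr hc0
  set k : ℂ → ℂ := fun z => f z - c * z with hkdef
  have hkd : DifferentiableOn ℂ k (Metric.ball (0 : ℂ) 1) := hf.sub (differentiableOn_id.const_mul c)
  have hk' : ∀ z ∈ (Metric.ball (0 : ℂ) 1), deriv k z = deriv f z - c := fun z hz => by
    have := ((hf.differentiableAt (hD.mem_nhds hz)).hasDerivAt).fun_sub
      ((hasDerivAt_id z).const_mul c)
    simpa [hkdef] using this.deriv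
  set δ := ‖c‖ / 8 with hδ
  have hδ0 : 0 < δ := by positivity
  obtain ⟨η, hη0, hη⟩ : ∃ η > 0, ∀ z : ℂ, ‖z‖ < η → z ∈ (Metric.ball (0 : ℂ) 1) ∧ ‖deriv k z‖ < δ := by
    have h1 : ContinuousAt (deriv k) 0 :=
      ((hkd.deriv hD).differentiableAt (hD.mem_nhds h0D)).continuousAt
    have h2 : ∀ᶠ z in 𝓝 (0 : ℂ), z ∈ (Metric.ball (0 : ℂ) 1) ∧ ‖deriv k z‖ < δ := by
      refine Filter.Eventually.and (hD.mem_nhds h0D) ?_
      refine h1.norm.eventually_lt_const ?_
      simp [hk' 0 h0D, ← hc, hδ0]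
    obtain ⟨η, hη0, hη⟩ := Metric.eventually_nhds_iff.mp h2
    exact ⟨η, hη0, fun z hz => hη (by simpa [dist_zero_right] using hz)⟩
  obtain ⟨ε, hε0, hεr, hεη⟩ : ∃ ε : ℝ, 0 < ε ∧ 2 * ε ≤ r ∧ 2 * ε < η := by
    refine ⟨min r η / 3, by positivity, ?_, ?_⟩ <;>
      linarith [min_le_left r η, min_le_right r η, lt_min hr0 hη0]
  have hkball : ∀ z ∈ Metric.closedBall (0 : ℂ) (2 * ε), z ∈ (Metric.ball (0 : ℂ) 1) ∧ ‖deriv k z‖ ≤ δ := fun z hz => by
    have := hη z (lt_of_le_of_lt (by simpa using hz) hεη)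
    exact ⟨this.1, this.2.le⟩
  have hklip : ∀ z w : ℂ, ‖z‖ ≤ 2 * ε → ‖w‖ ≤ 2 * ε → ‖k z - k w‖ ≤ δ * ‖z - w‖ := by
    intro z w hz hw
    exact Convex.norm_image_sub_le_of_norm_deriv_le
      (fun x hx => hkd.differentiableAt (hD.mem_nhds (hkball x hx).1))
      (fun x hx => (hkball x hx).2) (convex_closedBall 0 (2 * ε)) (by simpa using hw)
      (by simpa using hz)
  have hk0 : k 0 = 0 := by simp [hkdef, hf0]
  have hkb : ∀ z : ℂ, ‖z‖ ≤ 2 * ε → ‖k z‖ ≤ 2 * ε * δ := by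
    intro z hz
    have := hklip z 0 hz (by simp; positivity)
    rw [hk0, sub_zero, sub_zero] at this
    nlinarith
  -- the cut off
  set χ : ℂ → ℝ := fun z => min 1 ((2 * ε - ‖z‖) / ε) with hχ
  set K : ℂ → ℂ := fun z => if ‖z‖ ≤ 2 * ε then (χ z : ℂ) * k z else 0 with hK
  have hχlip : ∀ z w : ℂ, |χ z - χ w| ≤ ‖z - w‖ / ε := by
    intro z w
    refine (abs_min_sub_min_le_max _ _ _ _).trans (max_le (by simp; positivity) ?_)
    rw [← sub_div, abs_div, abs_of_pos hε0]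
    gcongr
    rw [sub_sub_sub_cancel_left, abs_sub_comm]
    exact abs_norm_sub_norm_le z w
  have hχ1 : ∀ z : ℂ, ‖z‖ ≤ 2 * ε → |χ z| ≤ 1 := by
    intro z hz
    rw [abs_le]
    refine ⟨?_, min_le_left _ _⟩
    have : 0 ≤ χ z := le_min zero_le_one (div_nonneg (by linarith) hε0.le)
    linarith
  have hKlip : ∀ z w : ℂ, ‖K z - K w‖ ≤ 3 * δ * ‖z - w‖ := by
    have main : ∀ z w : ℂ, ‖z‖ ≤ 2 * ε → ‖K z - K w‖ ≤ 3 * δ * ‖z - w‖ := by
      intro z w hz
      by_cases hw : ‖w‖ ≤ 2 * ε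
      · simp only [hK, if_pos hz, if_pos hw]
        have e : (χ z : ℂ) * k z - (χ w : ℂ) * k w =
            (χ z : ℂ) * (k z - k w) + ((χ z - χ w : ℝ) : ℂ) * k w := by push_cast; ring
        rw [e]
        refine (norm_add_le _ _).trans ?_
        rw [norm_mul, norm_mul, Complex.norm_real, Complex.norm_real, Real.norm_eq_abs,
          Real.norm_eq_abs]
        have a1 := mul_le_mul (hχ1 z hz) (hklip z w hz hw) (norm_nonneg _) zero_le_one
        have a2 := mul_le_mul (hχlip z w) (hkb w hw) (norm_nonneg _) (by positivity)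
        have a3 : ‖z - w‖ / ε * (2 * ε * δ) = 2 * δ * ‖z - w‖ := by field_simp
        linarith
      · simp only [hK, if_pos hz, if_neg hw, sub_zero]
        push Not at hw
        rw [norm_mul, Complex.norm_real, Real.norm_eq_abs]
        have h1 : χ w ≤ 0 := (min_le_right _ _).trans (div_nonpos_of_nonpos_of_nonneg
          (by linarith) hε0.le)
        have h0 : 0 ≤ χ z := le_min zero_le_one (div_nonneg (by linarith) hε0.le)
        have h2 : |χ z| ≤ ‖z - w‖ / ε := by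
          rw [abs_of_nonneg h0]
          linarith [le_abs_self (χ z - χ w), hχlip z w]
        have a2 := mul_le_mul h2 (hkb z hz) (norm_nonneg _) (by positivity)
        have a3 : ‖z - w‖ / ε * (2 * ε * δ) = 2 * δ * ‖z - w‖ := by field_simp
        have a4 : 0 ≤ δ * ‖z - w‖ := by positivity
        linarith
    intro z w
    by_cases hz : ‖z‖ ≤ 2 * ε
    · exact main z w hz
    by_cases hw : ‖w‖ ≤ 2 * ε
    · rw [norm_sub_rev, norm_sub_rev z]; exact main w z hw
    simp only [hK, if_neg hz, if_neg hw, sub_zero, norm_zero]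
    positivity
  have hKb : ∀ z, ‖K z‖ ≤ 2 * ε * δ := by
    intro z
    by_cases hz : ‖z‖ ≤ 2 * ε
    · simp only [hK, if_pos hz, norm_mul, Complex.norm_real, Real.norm_eq_abs]
      have := mul_le_mul (hχ1 z hz) (hkb z hz) (norm_nonneg _) zero_le_one
      linarith
    · simp only [hK, if_neg hz, norm_zero]; positivity
  set Φ : ℂ → ℂ := fun z => c * z + K z with hΦ
  have Φinj : Function.Injective Φ := by
    intro z w hzw
    have h1 : c * (z - w) = -(K z - K w) := by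
      simp only [hΦ] at hzw; linear_combination hzw
    have h2 := congrArg norm h1
    rw [norm_neg, norm_mul] at h2
    have h3 := hKlip z w
    have h4 : ‖z - w‖ * (5 * δ) ≤ 0 := by rw [hδ] at h3 ⊢; nlinarith
    have h5 : ‖z - w‖ ≤ 0 := nonpos_of_mul_nonpos_left h4 (by positivity)
    exact sub_eq_zero.mp (norm_le_zero_iff.mp h5)
  have Φsurj : Function.Surjective Φ := by
    intro ζ
    have hlip : LipschitzWith ⟨3 / 8, by norm_num⟩ (fun z => (ζ - K z) / c) := by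
      refine LipschitzWith.of_dist_le_mul fun z w => ?_
      rw [dist_eq_norm, dist_eq_norm, ← sub_div, norm_div, div_le_iff₀ hcn,
        sub_sub_sub_cancel_left, norm_sub_rev (K w) (K z)]
      refine (hKlip z w).trans (le_of_eq ?_)
      show 3 * δ * ‖z - w‖ = 3 / 8 * ‖z - w‖ * ‖c‖
      rw [hδ]; ring
    have hcw : ContractingWith ⟨3 / 8, by norm_num⟩ (fun z => (ζ - K z) / c) :=
      ⟨by show (3 / 8 : ℝ) < 1; norm_num, hlip⟩
    refine ⟨ContractingWith.fixedPoint _ hcw, ?_⟩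
    have := hcw.fixedPoint_isFixedPt.eq
    rw [div_eq_iff hc0] at this
    simp only [hΦ]
    linear_combination -this
  have Φin : ∀ z : ℂ, ‖z‖ ≤ ε → Φ z = f z := by
    intro z hz
    have h1 : χ z = 1 := min_eq_left (by rw [le_div_iff₀ hε0]; linarith)
    simp [hΦ, hK, if_pos (show ‖z‖ ≤ 2 * ε by linarith), h1, hkdef]
  set T : ℂ → ℂ := fun ζ => Q.eval ζ⁻¹ with hTdef
  set V : Set ℂ := {(0 : ℂ)}ᶜ with hVdef
  have hV : IsOpen V := isOpen_compl_singleton
  have hT : DifferentiableOn ℂ T V := fun z hz =>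
    ((Q.differentiableAt).comp z (differentiableAt_inv hz)).differentiableWithinAt
  have hΦ0 : ∀ z : ℂ, z ≠ 0 → Φ z ≠ 0 := fun z hz h =>
    hz (Φinj (by rw [h, Φin 0 (by simp; positivity), hf0]))
  have hnz : ∀ {ρ : ℝ}, 0 < ρ → ∀ θ, pz ρ θ ≠ 0 := fun hρ θ h => by
    have := norm_pz hρ.le θ; rw [h, norm_zero] at this; linarith
  -- `f` on the annulus `ε < ‖z‖ ≤ r`
  have hrD : ∀ ρ ∈ Icc ε r, ∀ θ, pz ρ θ ∈ (Metric.ball (0 : ℂ) 1) := fun ρ hρ θ => by
    simp [norm_pz (hε0.le.trans hρ.1)]; linarith [hρ.2]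
  obtain ⟨-, -, Iin⟩ := image_integral (c := 0) (α := 1) (β := 0) (Φ := f) hD hf hV hT hε0
    (by linarith) hrD
    (fun ρ hρ θ => by
      simp only [hVdef, mem_compl_iff, mem_singleton_iff, Wm, zero_mul, add_zero,
        zero_add, Complex.ofReal_one, one_mul]
      exact fun h => hnz (hε0.trans_le hρ.1) θ (hinj (hrD ρ hρ θ) h0D (by rw [h, hf0])))
    (fun ρ hρ θ => by
      rw [wm_jacobian]
      simp only [Complex.ofReal_zero, zero_mul, map_zero, Complex.zero_re, add_zero]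
      exact mul_nonneg (hε0.le.trans hρ.1) (sq_nonneg _))
    (fun x _ => by simp [Wm])
    (hinj.mono fun z hz => by simpa using hz.2.trans_lt hr1)
  -- the middle annulus
  have hmD : ∀ ρ ∈ Icc ε (2 * ε), ∀ θ, pz ρ θ ∈ (Metric.ball (0 : ℂ) 1) := fun ρ hρ θ =>
    (hkball _ (by simpa [norm_pz (hε0.le.trans hρ.1)] using hρ.2)).1
  have hΦm : ∀ ρ ∈ Icc ε (2 * ε), ∀ θ, Φ (pz ρ θ) = Wm c 2 (-1 / ε) k ρ θ := by
    intro ρ hρ θ
    have hn := norm_pz (hε0.le.trans hρ.1) θ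
    have h1 : χ (pz ρ θ) = 2 + -1 / ε * ρ := by
      simp only [hχ, hn]
      rw [min_eq_right (by rw [div_le_iff₀ hε0]; linarith [hρ.1])]
      field_simp
      ring
    simp only [hΦ, hK, if_pos (hn.le.trans hρ.2), h1, Wm]
  obtain ⟨mM, iM, IM⟩ := image_integral (c := c) (α := 2) (β := -1 / ε) (Φ := Φ) hD hkd hV hT
    hε0 (by linarith) hmD
    (fun ρ hρ θ => by rw [← hΦm ρ hρ θ]; exact hΦ0 _ (hnz (hε0.trans_le hρ.1) θ))
    (fun ρ hρ θ => by
      have hρ0 : 0 ≤ ρ := hε0.le.trans hρ.1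
      have hn := norm_pz hρ0 θ
      rw [wm_jacobian]
      set A := c + ((2 + -1 / ε * ρ : ℝ) : ℂ) * deriv k (pz ρ θ) with hA
      have hco : |2 + -1 / ε * ρ| ≤ 1 := by
        have e : 2 + -1 / ε * ρ = (2 * ε - ρ) / ε := by field_simp; ring
        rw [e, abs_div, abs_of_pos hε0, div_le_iff₀ hε0, abs_of_nonneg (by linarith [hρ.2])]
        linarith [hρ.1]
      have hzb : pz ρ θ ∈ Metric.closedBall (0 : ℂ) (2 * ε) := by simpa [hn] using hρ.2
      have hd1 := (hkball _ hzb).2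
      have hA' : 7 * δ ≤ ‖A‖ := by
        have h1 : ‖c‖ ≤ ‖A‖ + ‖((2 + -1 / ε * ρ : ℝ) : ℂ) * deriv k (pz ρ θ)‖ := by
          refine le_trans (le_of_eq ?_) (norm_sub_le _ _)
          rw [hA]; simp
        rw [norm_mul, Complex.norm_real, Real.norm_eq_abs] at h1
        have := mul_le_mul hco hd1 (norm_nonneg _) zero_le_one
        linarith [show ‖c‖ = 8 * δ by rw [hδ]; ring]
      have hB : ‖((-1 / ε : ℝ) : ℂ) * k (pz ρ θ)‖ ≤ 2 * δ := by
        rw [norm_mul, Complex.norm_real, Real.norm_eq_abs, abs_div, abs_neg, abs_one,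
          abs_of_pos hε0, one_div, inv_mul_le_iff₀ hε0]
        linarith [hkb (pz ρ θ) (by linarith [hρ.2])]
      have h2 := Complex.abs_re_le_norm
        (conj (((-1 / ε : ℝ) : ℂ) * k (pz ρ θ)) * (pz ρ θ * A))
      rw [norm_mul, Complex.norm_conj, norm_mul (pz ρ θ), hn] at h2
      nlinarith [(abs_le.mp h2).1, mul_le_mul_of_nonneg_right hB
        (mul_nonneg hρ0 (norm_nonneg A)), mul_le_mul_of_nonneg_right hA'
        (mul_nonneg hρ0 (norm_nonneg A)), mul_nonneg hδ0.le (mul_nonneg hρ0 (norm_nonneg A))])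
    (fun x hx => hΦm _ (Ioc_subset_Icc_self hx.1) _)
    Φinj.injOn
  -- bound for `f` on the closed disc
  obtain ⟨b, hb⟩ := (isCompact_closedBall (0 : ℂ) r).exists_bound_of_continuousOn
    (hf.continuousOn.mono (Metric.closedBall_subset_ball hr1))
  have hge : ∀ᶠ M in atTop, gfun T (Wm 0 1 0 f) (Wmt 0 1 0 f) r ≤
      gfun T (Wm c 0 0 0) (Wmt c 0 0 0) M := by
    filter_upwards [eventually_ge_atTop (2 * ε),
      eventually_ge_atTop ((b + 2 * ε * δ) / ‖c‖)] with M hM hMb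
    have hMo : ∀ ρ ∈ Icc (2 * ε) M, ∀ θ, Φ (pz ρ θ) = c * pz ρ θ := by
      intro ρ hρ θ
      have hn := norm_pz (show 0 ≤ ρ by linarith [hρ.1]) θ
      rcases eq_or_lt_of_le hρ.1 with h | h
      · have h1 : χ (pz ρ θ) = 0 := by
          show min 1 ((2 * ε - ‖pz ρ θ‖) / ε) = 0
          rw [hn, ← h, sub_self, zero_div]; exact min_eq_right zero_le_one
        simp only [hΦ, hK, h1]; simp
      · simp [hΦ, hK, hn, not_le.mpr h]
    obtain ⟨mO, iO, IO⟩ := image_integral (U := univ) (k := 0) (c := c) (α := 0) (β := 0)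
      (Φ := Φ) isOpen_univ (differentiableOn_const _) hV hT (p := 2 * ε) (q := M) (by positivity)
      hM (fun _ _ _ => mem_univ _)
      (fun ρ hρ θ => by
        simp only [hVdef, mem_compl_iff, mem_singleton_iff, Wm, Pi.zero_apply, mul_zero, add_zero]
        exact mul_ne_zero hc0 (hnz (by linarith [hρ.1]) θ))
      (fun ρ hρ θ => by
        rw [wm_jacobian]
        simp only [Complex.ofReal_zero, zero_mul, map_zero, Complex.zero_re, add_zero]
        exact mul_nonneg (by linarith [hρ.1]) (sq_nonneg _))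
      (fun x hx => by simp [Wm, hMo _ (Ioc_subset_Icc_self hx.1)])
      Φinj.injOn
    have hsub : f '' ann ε r ⊆ Φ '' ann ε (2 * ε) ∪ Φ '' ann (2 * ε) M := by
      rintro _ ⟨z, ⟨hz1, hz2⟩, rfl⟩
      obtain ⟨y, hy⟩ := Φsurj (f z)
      have hy1 : ε < ‖y‖ := by
        by_contra hcon
        push Not at hcon
        have hyD : y ∈ (Metric.ball (0 : ℂ) 1) := (hkball y (by simp; linarith)).1
        rw [Φin y hcon] at hy
        have hzD : z ∈ (Metric.ball (0 : ℂ) 1) := by simpa using hz2.trans_lt hr1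
        rw [hinj hyD hzD hy] at hcon
        linarith
      have hy2 : ‖y‖ ≤ M := by
        have h1 : ‖c * y‖ ≤ ‖f z‖ + ‖K y‖ := by
          refine le_trans (le_of_eq ?_) (norm_sub_le _ _)
          rw [← hy]; simp [hΦ]
        have h2 := hb z (by simpa using hz2)
        rw [norm_mul] at h1
        rw [div_le_iff₀ hcn] at hMb
        by_contra hcon
        push Not at hcon
        nlinarith [mul_lt_mul_of_pos_right hcon hcn, hKb y]
      rcases le_or_gt ‖y‖ (2 * ε) with h | h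
      · exact Or.inl ⟨y, ⟨hy1, h⟩, hy⟩
      · exact Or.inr ⟨y, ⟨h, hy2⟩, hy⟩
    have hdisj : Disjoint (Φ '' ann ε (2 * ε)) (Φ '' ann (2 * ε) M) := by
      rw [Set.disjoint_image_iff Φinj, Set.disjoint_left]
      intro z h1 h2; exact absurd h1.2 (not_le.mpr h2.1)
    have hle : (∫ w in f '' ann ε r, ‖deriv T w‖ ^ 2) ≤
        (∫ w in Φ '' ann ε (2 * ε), ‖deriv T w‖ ^ 2) +
          ∫ w in Φ '' ann (2 * ε) M, ‖deriv T w‖ ^ 2 := by
      rw [← setIntegral_union hdisj mO iM iO]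
      exact setIntegral_mono_set (iM.union iO) (Eventually.of_forall fun w => sq_nonneg _)
        (LE.le.eventuallyLE hsub)
    have g1 : gfun T (Wm c 2 (-1 / ε) k) (Wmt c 2 (-1 / ε) k) ε =
        gfun T (Wm 0 1 0 f) (Wmt 0 1 0 f) ε := by
      have he : ∀ θ, Wm c 2 (-1 / ε) k ε θ = Wm 0 1 0 f ε θ ∧
          Wmt c 2 (-1 / ε) k ε θ = Wmt 0 1 0 f ε θ := by
        intro θ
        have hz : pz ε θ ∈ (Metric.ball (0 : ℂ) 1) := hmD ε ⟨le_rfl, by linarith⟩ θ
        have h1 : (2 + -1 / ε * ε : ℝ) = 1 := by field_simp; ring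
        constructor
        · simp [Wm, h1, hkdef]
        · simp [Wmt, h1, hk' _ hz]
      simp [gfun, he]
    have g2 : gfun T (Wm c 2 (-1 / ε) k) (Wmt c 2 (-1 / ε) k) (2 * ε) =
        gfun T (Wm c 0 0 0) (Wmt c 0 0 0) (2 * ε) := by
      have h1 : (2 + -1 / ε * (2 * ε) : ℝ) = 0 := by field_simp; ring
      simp [gfun, Wm, Wmt, h1]
    linarith
  -- the functional of a linear map tends to zero at infinity
  have htend : Tendsto (fun M => gfun T (Wm c 0 0 0) (Wmt c 0 0 0) M) atTop (𝓝 0) := by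
    set g : ℂ → ℝ := fun u => ‖Q.eval u‖ * (‖Q.derivative.eval u‖ * ‖u‖) with hg
    have hgc : Continuous g := by fun_prop
    rw [Metric.tendsto_nhds]
    intro e he
    obtain ⟨η', hη'0, hη'⟩ : ∃ η' > 0, ∀ u : ℂ, ‖u‖ < η' → g u < e / (4 * π) := by
      have := (hgc.tendsto 0).eventually_lt_const (show g 0 < e / (4 * π) by simp [hg]; positivity)
      obtain ⟨η', h0, h⟩ := Metric.eventually_nhds_iff.mp this
      exact ⟨η', h0, fun u hu => h (by simpa [dist_zero_right] using hu)⟩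
    filter_upwards [eventually_gt_atTop (1 / (η' * ‖c‖)), eventually_gt_atTop 0] with M hM hM0
    rw [dist_zero_right]
    refine lt_of_le_of_lt (norm_integral_le_of_norm_le_const (C := e / (4 * π)) fun θ _ => ?_) ?_
    · have hw : Wm c 0 0 0 M θ = c * pz M θ := by simp [Wm]
      have hne : c * pz M θ ≠ 0 := mul_ne_zero hc0 (hnz hM0 θ)
      have hdT : deriv T (c * pz M θ) =
          Q.derivative.eval (c * pz M θ)⁻¹ * -((c * pz M θ) ^ 2)⁻¹ :=
        ((Q.hasDerivAt _).comp (c * pz M θ) (hasDerivAt_inv hne)).deriv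
      have hu : ‖(c * pz M θ)⁻¹‖ < η' := by
        rw [norm_inv, norm_mul, norm_pz hM0.le, inv_lt_iff_one_lt_mul₀ (by positivity)]
        rw [div_lt_iff₀ (by positivity)] at hM
        linarith
      refine le_trans ?_ (hη' _ hu).le
      rw [Real.norm_eq_abs]
      refine (Complex.abs_im_le_norm _).trans (le_of_eq ?_)
      rw [hw, hdT, hg]
      simp only [hTdef, Wmt, norm_mul, Complex.norm_conj, norm_neg, norm_inv, norm_pow, norm_mul,
        Complex.norm_I]
      simp only [add_zero, Complex.ofReal_zero, zero_mul]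
      have hp0 : ‖pz M θ‖ ≠ 0 := by rw [norm_pz hM0.le]; positivity
      field_simp
    · have hpi : (0 : ℝ) < π := Real.pi_pos
      have e1 : |π - -π| = 2 * π := by rw [abs_of_pos (by linarith)]; ring
      rw [e1]
      field_simp
      linarith
  exact ge_of_tendsto htend hge

/-! ### Fourier analysis on a circle -/

theorem integral_conj' {g : ℝ → ℂ} {a b : ℝ} :
    ∫ x in a..b, conj (g x) = conj (∫ x in a..b, g x) := by
  simp only [intervalIntegral, _root_.integral_conj, map_sub]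

theorem integral_circle_zpow_mul_conj {r : ℝ} (hr : 0 < r) (j l : ℤ) :
    ∫ θ in (-π)..π, conj (pz r θ ^ l) * pz r θ ^ j =
      if j = l then ((2 * π * r ^ (2 * l) : ℝ) : ℂ) else 0 := by
  have hr' : (r : ℂ) ≠ 0 := by exact_mod_cast hr.ne'
  have e : ∀ θ : ℝ, conj (pz r θ ^ l) * pz r θ ^ j =
      (r : ℂ) ^ (l + j) * Complex.exp ((((j - l : ℤ) : ℂ) * I) * θ) := by
    intro θ
    simp only [pz, mul_zpow, map_mul, map_zpow₀, Complex.conj_ofReal, ← Complex.exp_conj,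
      ← Complex.exp_int_mul, zpow_add₀ hr']
    rw [mul_mul_mul_comm, ← Complex.exp_add]
    congr 2
    simp
    ring
  simp only [e]
  rw [intervalIntegral.integral_const_mul]
  by_cases h : j = l
  · subst h
    simp only [sub_self, Int.cast_zero, zero_mul, Complex.exp_zero, if_true, ← two_mul]
    rw [intervalIntegral.integral_const]
    simp only [Complex.real_smul, mul_one]
    push_cast
    ring
  · rw [if_neg h, integral_exp_mul_complex (mul_ne_zero (by exact_mod_cast sub_ne_zero.mpr h) I_ne_zero)]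
    have : Complex.exp (((j - l : ℤ) : ℂ) * I * π) = Complex.exp (((j - l : ℤ) : ℂ) * I * ((-π : ℝ) : ℂ)) :=
      Complex.exp_eq_exp_iff_exists_int.mpr ⟨j - l, by push_cast; ring⟩
    rw [this]; simp

/-- Mean value zero for `z ↦ z V z`. -/
theorem integral_pz_mul {V : ℂ → ℂ} (hV : DifferentiableOn ℂ V (Metric.ball (0 : ℂ) 1)) {r : ℝ} (hr0 : 0 < r)
    (hr1 : r < 1) : ∫ θ in (-π)..π, pz r θ * V (pz r θ) = 0 := by
  have h : (∮ z in C(0, r), V z) = 0 :=
    (hV.mono (Metric.closedBall_subset_ball hr1)).diffContOnCl_ball subset_rfl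
      |>.circleIntegral_eq_zero hr0.le
  have hcm : ∀ θ, circleMap (0 : ℂ) r θ = pz r θ := fun θ => by simp [circleMap, pz]
  have h2 : ∫ θ in (0)..(2 * π), pz r θ * V (pz r θ) = 0 := by
    have h3 : (∮ z in C(0, r), V z) = I * ∫ θ in (0)..(2 * π), pz r θ * V (pz r θ) := by
      rw [circleIntegral, ← intervalIntegral.integral_const_mul]
      simp only [deriv_circleMap, hcm, smul_eq_mul]
      congr 1; funext θ; ring
    rw [h3] at h
    simpa [I_ne_zero] using h
  have hper : Function.Periodic (fun θ => pz r θ * V (pz r θ)) (2 * π) := fun θ => by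
    simp only [← hcm, periodic_circleMap (0 : ℂ) r θ]
  have := hper.intervalIntegral_add_eq (-π) 0
  rw [zero_add, show -π + 2 * π = π by ring] at this
  rw [this]; exact h2

theorem exists_taylor_rest {h : ℂ → ℂ} (hh : DifferentiableOn ℂ h (Metric.ball (0 : ℂ) 1)) (N : ℕ) :
    ∃ U : ℂ → ℂ, DifferentiableOn ℂ U (Metric.ball (0 : ℂ) 1) ∧
      ∀ z, h z = (∑ k ∈ Finset.range N, cf h k * z ^ k) + z ^ N * U z := by
  have h0 : (Metric.ball (0 : ℂ) 1) ∈ 𝓝 (0 : ℂ) := Metric.ball_mem_nhds _ one_pos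
  have hp := (hh.analyticAt h0).hasFPowerSeriesAt
  refine ⟨(Function.swap dslope 0)^[N] h, ?_, fun z => ?_⟩
  · induction N with
    | zero => simpa using hh
    | succ m ih =>
      rw [Function.iterate_succ_apply']
      exact (Complex.differentiableOn_dslope h0).mpr ih
  · induction N with
    | zero => simp
    | succ m ih =>
      have hval : (Function.swap dslope 0)^[m] h 0 = cf h m := by
        have h1 := (HasFPowerSeriesAt.has_fpower_series_iterate_dslope_fslope m hp).coeff_zero 1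
        rw [← h1, ← FormalMultilinearSeries.coeff, FormalMultilinearSeries.coeff_iterate_fslope,
          zero_add]
        simp [cf, FormalMultilinearSeries.coeff_ofScalars]
      have hs := sub_smul_dslope ((Function.swap dslope 0)^[m] h) 0 z
      rw [sub_zero, smul_eq_mul, hval] at hs
      rw [Finset.sum_range_succ, Function.iterate_succ_apply', ih]
      show _ = _ + z ^ (m + 1) * dslope _ 0 z
      linear_combination -(z ^ m) * hs

/-- The quadratic form `Re ∫ conj F · z F'` is bounded below by the Laurent polynomial part. -/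
theorem circle_lower_bound {ι : Type*} (s : Finset ι) (e : ι → ℤ) (he : InjOn e s) (N : ℕ)
    (heN : ∀ i ∈ s, e i < N) (d : ι → ℂ) {U : ℂ → ℂ} (hU : DifferentiableOn ℂ U (Metric.ball (0 : ℂ) 1))
    {r : ℝ} (hr0 : 0 < r) (hr1 : r < 1) :
    2 * π * ∑ i ∈ s, (e i : ℝ) * ‖d i‖ ^ 2 * r ^ (2 * e i) ≤
      ∫ θ in (-π)..π,
        (conj ((∑ i ∈ s, d i * pz r θ ^ e i) + pz r θ ^ N * U (pz r θ)) *
          ((∑ i ∈ s, (e i : ℂ) * d i * pz r θ ^ e i) +
            pz r θ ^ N * ((N : ℂ) * U (pz r θ) + pz r θ * deriv U (pz r θ)))).re := by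
  have hD : IsOpen (Metric.ball (0 : ℂ) 1) := Metric.isOpen_ball
  set z : ℝ → ℂ := fun θ => pz r θ with hz
  have hzD : ∀ θ, z θ ∈ (Metric.ball (0 : ℂ) 1) := fun θ => by simp [hz, norm_pz hr0.le, hr1]
  have cz : Continuous z := continuous_pz.comp (by fun_prop : Continuous fun θ : ℝ => (r, θ))
  have hz0 : ∀ θ, z θ ≠ 0 := fun θ => by
    simp only [hz, ← norm_pos_iff, norm_pz hr0.le]; exact hr0
  have czp : ∀ j : ℤ, Continuous fun θ => z θ ^ j := fun j => cz.zpow₀ j fun θ => Or.inl (hz0 θ)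
  have cU : Continuous fun θ => U (z θ) := hU.continuousOn.comp_continuous cz hzD
  have cU' : Continuous fun θ => deriv U (z θ) :=
    (hU.deriv hD).continuousOn.comp_continuous cz hzD
  set E : ℂ → ℂ := fun w => w ^ N * U w with hE
  set G : ℂ → ℂ := fun w => (N : ℂ) * U w + w * deriv U w with hG
  have hGd : DifferentiableOn ℂ G (Metric.ball (0 : ℂ) 1) :=
    (hU.const_mul _).add (differentiableOn_id.mul (hU.deriv hD))
  have cG : Continuous fun θ => G (z θ) := hGd.continuousOn.comp_continuous cz hzD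
  -- cross terms
  have cross : ∀ i ∈ s, ∀ {S : ℂ → ℂ}, DifferentiableOn ℂ S (Metric.ball (0 : ℂ) 1) →
      ∫ θ in (-π)..π, conj (z θ ^ e i) * (z θ ^ N * S (z θ)) = 0 := by
    intro i hi S hS
    obtain ⟨m, hm⟩ : ∃ m : ℕ, (N : ℤ) = e i + ((m : ℤ) + 1) :=
      ⟨(N - e i - 1).toNat, by have := heN i hi; omega⟩
    have e1 : ∀ θ, conj (z θ ^ e i) * (z θ ^ N * S (z θ)) =
        ((r ^ (2 * e i) : ℝ) : ℂ) * (z θ * (z θ ^ m * S (z θ))) := by
      intro θ
      rw [← zpow_natCast (z θ) N, hm, zpow_add₀ (hz0 θ), zpow_add₀ (hz0 θ), zpow_one,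
        zpow_natCast]
      have e2 : conj (z θ ^ e i) * z θ ^ e i = ((r ^ (2 * e i) : ℝ) : ℂ) := by
        rw [Complex.conj_mul', norm_zpow, hz, norm_pz hr0.le, ← Complex.ofReal_pow,
          ← zpow_natCast (r ^ e i), ← zpow_mul, mul_comm (2 : ℤ)]
        rfl
      linear_combination (z θ ^ m * z θ * S (z θ)) * e2
    simp only [e1, intervalIntegral.integral_const_mul]
    rw [integral_pz_mul (V := fun w => w ^ m * S w) ((differentiableOn_pow m).mul hS) hr0 hr1,
      mul_zero]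
  set P : ℝ → ℂ := fun θ => ∑ i ∈ s, d i * z θ ^ e i with hP
  set P' : ℝ → ℂ := fun θ => ∑ i ∈ s, (e i : ℂ) * d i * z θ ^ e i with hP'
  have cP : Continuous P := continuous_finsetSum _ fun i _ => (continuous_const.mul (czp _))
  have cP' : Continuous P' := continuous_finsetSum _ fun i _ => (continuous_const.mul (czp _))
  have cE : Continuous fun θ => E (z θ) := (cz.pow N).mul cU
  have i1 : ∫ θ in (-π)..π, conj (P θ) * P' θ =
      ((2 * π * ∑ i ∈ s, (e i : ℝ) * ‖d i‖ ^ 2 * r ^ (2 * e i) : ℝ) : ℂ) := by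
    simp only [hP, hP', map_sum, Finset.sum_mul_sum, map_mul]
    rw [intervalIntegral.integral_finsetSum]
    · rw [Finset.mul_sum, Complex.ofReal_sum]
      refine Finset.sum_congr rfl fun l hl => ?_
      rw [intervalIntegral.integral_finsetSum, Finset.sum_eq_single l]
      · have : ∀ θ, conj (d l) * conj (z θ ^ e l) * ((e l : ℂ) * d l * z θ ^ e l) =
            (conj (d l) * d l * (e l : ℂ)) * (conj (z θ ^ e l) * z θ ^ e l) := fun θ => by ring
        simp only [this, intervalIntegral.integral_const_mul]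
        rw [integral_circle_zpow_mul_conj hr0, if_pos rfl, Complex.conj_mul']
        push_cast
        ring
      · intro i hi hne
        have : ∀ θ, conj (d l) * conj (z θ ^ e l) * ((e i : ℂ) * d i * z θ ^ e i) =
            (conj (d l) * d i * (e i : ℂ)) * (conj (z θ ^ e l) * z θ ^ e i) := fun θ => by ring
        simp only [this, intervalIntegral.integral_const_mul]
        rw [integral_circle_zpow_mul_conj hr0, if_neg (fun h => hne (he hi hl h)), mul_zero]
      · exact fun h => absurd hl h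
      · exact fun i _ => ((continuous_const.mul (Complex.continuous_conj.comp (czp _))).mul
          (continuous_const.mul (czp _))).intervalIntegrable _ _
    · exact fun l _ => (continuous_finsetSum _ fun i _ =>
        (continuous_const.mul (Complex.continuous_conj.comp (czp _))).mul
          (continuous_const.mul (czp _))).intervalIntegrable _ _
  have i2 : ∫ θ in (-π)..π, conj (P θ) * (z θ ^ N * G (z θ)) = 0 := by
    simp only [hP, map_sum, Finset.sum_mul, map_mul, mul_assoc (conj (d _))]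
    rw [intervalIntegral.integral_finsetSum]
    · exact Finset.sum_eq_zero fun i hi => by
        rw [intervalIntegral.integral_const_mul, cross i hi hGd, mul_zero]
    · exact fun i _ => (continuous_const.mul ((Complex.continuous_conj.comp (czp _)).mul
        ((cz.pow N).mul cG))).intervalIntegrable _ _
  have i3 : ∫ θ in (-π)..π, conj (E (z θ)) * P' θ = 0 := by
    have e3 : ∀ θ, conj (E (z θ)) * P' θ =
        ∑ i ∈ s, ((e i : ℂ) * d i) * conj (conj (z θ ^ e i) * (z θ ^ N * U (z θ))) := by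
      intro θ
      simp only [hP', hE, Finset.mul_sum, map_mul, Complex.conj_conj]
      exact Finset.sum_congr rfl fun i _ => by ring
    simp only [e3]
    rw [intervalIntegral.integral_finsetSum]
    · exact Finset.sum_eq_zero fun i hi => by
        rw [intervalIntegral.integral_const_mul, integral_conj', cross i hi hU, map_zero, mul_zero]
    · exact fun i _ => (continuous_const.mul (Complex.continuous_conj.comp
        ((Complex.continuous_conj.comp (czp _)).mul ((cz.pow N).mul cU)))).intervalIntegrable _ _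
  have i4 : 0 ≤ (∫ θ in (-π)..π, conj (E (z θ)) * (z θ ^ N * G (z θ))).re := by
    have hEd : DifferentiableOn ℂ E (Metric.ball (0 : ℂ) 1) := (differentiableOn_pow N).mul hU
    have hb : ∀ ρ ∈ Icc (0 : ℝ) r, ∀ θ, pz ρ θ ∈ (Metric.ball (0 : ℂ) 1) := fun ρ hρ θ => by
      simp [norm_pz hρ.1]; linarith [hρ.2]
    have hg := wm_green (c := 1) (α := 0) (β := 0) (k := 0) (U := univ) (T := E) isOpen_univ
      (differentiableOn_const _) hD hEd hr0.le (fun _ _ _ => mem_univ _)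
      (fun ρ hρ θ => by simpa [Wm] using hb ρ hρ θ)
    have hpos : 0 ≤ ∫ ρ in (0 : ℝ)..r, ∫ θ in (-π)..π,
        2 * (‖deriv E (Wm 1 0 0 0 ρ θ)‖ ^ 2 * (conj (Wmr 1 0 0 0 ρ θ) * Wmt 1 0 0 0 ρ θ).im) := by
      refine intervalIntegral.integral_nonneg hr0.le fun ρ hρ => ?_
      refine intervalIntegral.integral_nonneg (by linarith [Real.pi_pos]) fun θ _ => ?_
      rw [wm_jacobian]
      simp only [Complex.ofReal_zero, zero_mul, map_zero, Complex.zero_re, add_zero]
      have := hρ.1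
      positivity
    rw [hg] at hpos
    have hzero : gfun E (Wm 1 0 0 0) (Wmt 1 0 0 0) 0 = 0 := by simp [gfun, Wmt, pz]
    rw [hzero, sub_zero] at hpos
    refine hpos.trans (le_of_eq ?_)
    have hre : (∫ θ in (-π)..π, conj (E (z θ)) * (z θ ^ N * G (z θ))).re =
        ∫ θ in (-π)..π, (conj (E (z θ)) * (z θ ^ N * G (z θ))).re :=
      (Complex.reCLM.intervalIntegral_comp_comm
        (((Complex.continuous_conj.comp cE).mul ((cz.pow N).mul cG)).intervalIntegrable _ _)).symm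
    rw [hre, gfun]
    apply intervalIntegral.integral_congr
    intro θ _
    show (conj (E (Wm 1 0 0 0 r θ)) * (deriv E (Wm 1 0 0 0 r θ) * Wmt 1 0 0 0 r θ)).im =
      (conj (E (z θ)) * (z θ ^ N * G (z θ))).re
    have hdE : deriv E (z θ) * z θ = z θ ^ N * G (z θ) := by
      have := ((hasDerivAt_pow N (z θ)).fun_mul
        (hU.differentiableAt (hD.mem_nhds (hzD θ))).hasDerivAt).deriv
      rw [hE, this, hG]
      cases N with
      | zero => simp; ring
      | succ m => simp [pow_succ]; ring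
    rw [← hdE]
    simp [Wm, Wmt, hz]
    ring
  have cPc : Continuous fun θ => conj (P θ) := Complex.continuous_conj.comp cP
  have cEc : Continuous fun θ => conj (E (z θ)) := Complex.continuous_conj.comp cE
  have tot : ∫ θ in (-π)..π, conj (P θ + E (z θ)) * (P' θ + z θ ^ N * G (z θ)) =
      ((2 * π * ∑ i ∈ s, (e i : ℝ) * ‖d i‖ ^ 2 * r ^ (2 * e i) : ℝ) : ℂ) +
        ∫ θ in (-π)..π, conj (E (z θ)) * (z θ ^ N * G (z θ)) := by
    simp only [map_add, add_mul, mul_add]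
    rw [intervalIntegral.integral_add, intervalIntegral.integral_add,
      intervalIntegral.integral_add, i1, i2, i3]
    · ring
    all_goals
      first
      | exact (cPc.mul cP').intervalIntegrable _ _
      | exact (cPc.mul ((cz.pow N).mul cG)).intervalIntegrable _ _
      | exact (cEc.mul cP').intervalIntegrable _ _
      | exact (cEc.mul ((cz.pow N).mul cG)).intervalIntegrable _ _
      | exact ((cPc.mul cP').add (cEc.mul cP')).intervalIntegrable _ _
      | exact ((cPc.mul ((cz.pow N).mul cG)).add (cEc.mul ((cz.pow N).mul cG))).intervalIntegrable _ _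

  have hcont : Continuous fun θ =>
      conj (P θ + E (z θ)) * (P' θ + z θ ^ N * G (z θ)) :=
    (Complex.continuous_conj.comp (cP.add cE)).mul (cP'.add ((cz.pow N).mul cG))
  have hre := Complex.reCLM.intervalIntegral_comp_comm
    (hcont.intervalIntegrable (μ := volume) (-π) π)
  show _ ≤ ∫ θ in (-π)..π,
    Complex.reCLM (conj (P θ + E (z θ)) * (P' θ + z θ ^ N * G (z θ)))
  rw [hre, tot, Complex.reCLM_apply, Complex.add_re, Complex.ofReal_re]
  linarith

/-- **Area theorem** (weighted, polynomial form): if `Q (1 / f z) = ∑ aₗ z⁻ˡ + h z`, then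
`∑ k ‖bₖ‖² ≤ ∑ l ‖aₗ‖²`. -/
theorem area_theorem {f h : ℂ → ℂ} (hf : DifferentiableOn ℂ f (Metric.ball (0 : ℂ) 1))
    (hinj : Set.InjOn f (Metric.ball (0 : ℂ) 1)) (hf0 : f 0 = 0)
    (hh : DifferentiableOn ℂ h (Metric.ball (0 : ℂ) 1))
    (Q : Polynomial ℂ) (a : ℕ → ℂ) (n K : ℕ)
    (hQ : ∀ z ∈ Metric.ball (0 : ℂ) 1, z ≠ 0 →
      Q.eval (f z)⁻¹ = (∑ l ∈ Finset.Icc 1 n, a l / z ^ l) + h z) :
    ∑ k ∈ Finset.Icc 1 K, (k : ℝ) * ‖cf h k‖ ^ 2 ≤
      ∑ l ∈ Finset.Icc 1 n, (l : ℝ) * ‖a l‖ ^ 2 := by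
  have hD : IsOpen (Metric.ball (0 : ℂ) 1) := Metric.isOpen_ball
  obtain ⟨U, hU, hhU⟩ := exists_taylor_rest hh (K + 1)
  set s : Finset (ℕ ⊕ ℕ) := (Finset.Icc 1 n).disjSum (Finset.range (K + 1)) with hs
  set e : ℕ ⊕ ℕ → ℤ := Sum.elim (fun l => -(l : ℤ)) (fun k => (k : ℤ)) with he
  set d : ℕ ⊕ ℕ → ℂ := Sum.elim a (cf h) with hd
  have heinj : InjOn e s := by
    intro x hx y hy hxy
    simp only [hs, Finset.mem_coe, Finset.mem_disjSum, Finset.mem_Icc, Finset.mem_range] at hx hy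
    rcases hx with ⟨i, hi, rfl⟩ | ⟨i, hi, rfl⟩ <;> rcases hy with ⟨j, hj, rfl⟩ | ⟨j, hj, rfl⟩ <;>
      simp only [he, Sum.elim_inl, Sum.elim_inr] at hxy
    · exact congrArg Sum.inl (by omega)
    · omega
    · omega
    · exact congrArg Sum.inr (by omega)
  have heN : ∀ i ∈ s, e i < ((K + 1 : ℕ) : ℤ) := by
    intro x hx
    simp only [hs, Finset.mem_disjSum, Finset.mem_Icc, Finset.mem_range] at hx
    rcases hx with ⟨i, hi, rfl⟩ | ⟨i, hi, rfl⟩ <;> simp only [he, Sum.elim_inl, Sum.elim_inr] <;>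
      omega
  have key : ∀ r ∈ Ioo (0 : ℝ) 1, ∑ i ∈ s, (e i : ℝ) * ‖d i‖ ^ 2 * r ^ (2 * e i) ≤ 0 := by
    intro r hr
    have h1 := circle_lower_bound s e heinj (K + 1) heN d hU hr.1 hr.2
    have h2 := gfun_nonpos hf hinj hf0 Q hr.1 hr.2
    suffices heq : gfun (fun ζ => Q.eval ζ⁻¹) (Wm 0 1 0 f) (Wmt 0 1 0 f) r = ∫ θ in (-π)..π,
        (conj ((∑ i ∈ s, d i * pz r θ ^ e i) + pz r θ ^ (K + 1) * U (pz r θ)) *
          ((∑ i ∈ s, (e i : ℂ) * d i * pz r θ ^ e i) +
            pz r θ ^ (K + 1) * (((K + 1 : ℕ) : ℂ) * U (pz r θ) +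
              pz r θ * deriv U (pz r θ)))).re by
      rw [heq] at h2
      exact nonpos_of_mul_nonpos_right (h1.trans h2) (by positivity)
    unfold gfun
    apply intervalIntegral.integral_congr
    intro θ _
    set w := pz r θ with hw
    have hwn : ‖w‖ = r := norm_pz hr.1.le θ
    have hwD : w ∈ (Metric.ball (0 : ℂ) 1) := by simp [hwn, hr.2]
    have hw0 : w ≠ 0 := norm_pos_iff.mp (by rw [hwn]; exact hr.1)
    have hfw : f w ≠ 0 := fun h =>
      hw0 (hinj hwD (Metric.mem_ball_self one_pos) (by rw [h, hf0]))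
    set F : ℂ → ℂ := fun x => (∑ i ∈ s, d i * x ^ e i) + x ^ (K + 1) * U x with hF
    have heqF : ∀ x ∈ (Metric.ball (0 : ℂ) 1), x ≠ 0 → Q.eval (f x)⁻¹ = F x := by
      intro x hx hx0
      rw [hQ x hx hx0, hhU x, hF, ← add_assoc]
      simp [hs, he, hd, Finset.sum_disjSum, div_eq_mul_inv, zpow_neg, zpow_natCast]
    have hev : (fun x => Q.eval (f x)⁻¹) =ᶠ[𝓝 w] F := by
      filter_upwards [hD.mem_nhds hwD, isOpen_ne.mem_nhds hw0] with x h1 h2 using heqF x h1 h2
    have hdF : HasDerivAt F ((∑ i ∈ s, d i * ((e i : ℂ) * w ^ (e i - 1))) +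
        ((((K + 1 : ℕ) : ℂ)) * w ^ K * U w + w ^ (K + 1) * deriv U w)) w := by
      refine (HasDerivAt.fun_sum fun i _ => ?_).fun_add ?_
      · exact (hasDerivAt_zpow (e i) w (Or.inl hw0)).const_mul (d i)
      · simpa using (hasDerivAt_pow (K + 1) w).fun_mul
          (hU.differentiableAt (hD.mem_nhds hwD)).hasDerivAt
    have hdQ : HasDerivAt (fun x => Q.eval (f x)⁻¹)
        (deriv (fun ζ => Q.eval ζ⁻¹) (f w) * deriv f w) w :=
      (((Q.differentiableAt).comp (f w) (differentiableAt_inv hfw)).hasDerivAt).comp w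
        (hf.differentiableAt (hD.mem_nhds hwD)).hasDerivAt
    have hder := hdQ.unique (hdF.congr_of_eventuallyEq hev)
    have hW : Wm 0 1 0 f r θ = f w := by simp [Wm, hw]
    have hWt : Wmt 0 1 0 f r θ = I * w * deriv f w := by simp [Wmt, hw]
    have hsum : deriv (fun ζ => Q.eval ζ⁻¹) (f w) * (I * w * deriv f w) =
        I * ((∑ i ∈ s, (e i : ℂ) * d i * w ^ e i) +
          w ^ (K + 1) * (((K + 1 : ℕ) : ℂ) * U w + w * deriv U w)) := by
      have e1 : ∑ i ∈ s, (e i : ℂ) * d i * w ^ e i =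
          w * ∑ i ∈ s, d i * ((e i : ℂ) * w ^ (e i - 1)) := by
        rw [Finset.mul_sum]
        refine Finset.sum_congr rfl fun i _ => ?_
        rw [zpow_sub_one₀ hw0]; field_simp
      rw [e1]
      linear_combination (I * w) * hder
    show (conj (Q.eval (Wm 0 1 0 f r θ)⁻¹) *
      (deriv (fun ζ => Q.eval ζ⁻¹) (Wm 0 1 0 f r θ) * Wmt 0 1 0 f r θ)).im =
        (conj (F w) * _).re
    rw [hW, hWt, hsum, heqF w hwD hw0, ← mul_assoc (conj (F w)) I, mul_comm (conj (F w)) I,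
      mul_assoc I, Complex.I_mul_im]
  have hcont : ContinuousAt (fun r : ℝ => ∑ i ∈ s, (e i : ℝ) * ‖d i‖ ^ 2 * r ^ (2 * e i)) 1 :=
    tendsto_finsetSum _ fun i _ =>
      (continuousAt_zpow₀ 1 (2 * e i) (Or.inl one_ne_zero)).const_mul _
  have hlim := le_of_tendsto (hcont.mono_left (nhdsWithin_le_nhds (s := Iio 1))) <| by
    filter_upwards [Ioo_mem_nhdsLT (show (0 : ℝ) < 1 from one_pos)] with r hr using key r hr
  simp only [one_zpow, mul_one, hs, Finset.sum_disjSum, he, hd, Sum.elim_inl, Sum.elim_inr,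
    Int.cast_neg, Int.cast_natCast, neg_mul, Finset.sum_neg_distrib] at hlim
  have hr : ∑ k ∈ Finset.range (K + 1), (k : ℝ) * ‖cf h k‖ ^ 2 =
      ∑ k ∈ Finset.Icc 1 K, (k : ℝ) * ‖cf h k‖ ^ 2 := by
    refine (Finset.sum_subset (fun k hk => ?_) fun k hk hk' => ?_).symm
    · simp only [Finset.mem_Icc, Finset.mem_range] at hk ⊢; omega
    · simp only [Finset.mem_Icc, Finset.mem_range] at hk hk'
      have : k = 0 := by omega
      simp [this]
  linarith

end Vale.Agent.P142
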