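import Vale.Agent.P142.Faber

/-!
The weighted Grunsky inequality for the coefficients of `1/f'`.

The hypothesis `AreaBound U` is the area theorem for `U`; it is proved in `Area.lean`.
-/

open Complex Metric Finset Polynomial

namespace Vale.Agent.P142

namespace Univ

variable (U : Univ)

/-- The area theorem for the Faber polynomials of `U`. -/
def AreaBound : Prop :=
  ∀ (h : ℂ → ℂ), DifferentiableOn ℂ h (ball 0 1) → ∀ (Q : ℂ[X]) (a : ℕ → ℂ) (n K : ℕ),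
    (∀ z ∈ ball (0:ℂ) 1, z ≠ 0 → Q.eval (U.f z)⁻¹ = (∑ l ∈ Icc 1 n, a l / z ^ l) + h z) →
      ∑ k ∈ Icc 1 K, (k:ℝ) * ‖cf h k‖ ^ 2 ≤ ∑ l ∈ Icc 1 n, (l:ℝ) * ‖a l‖ ^ 2

variable {U}

/-- Grunsky inequality. -/
lemma grunsky (hA : U.AreaBound) (c : ℕ → ℂ) (n K : ℕ) :
    ∑ j ∈ Icc 1 K, (j:ℝ) * ‖∑ l ∈ Icc 1 n, c l * U.L j l‖ ^ 2
      ≤ ∑ l ∈ Icc 1 n, ‖c l‖ ^ 2 / l := by
  have hd : DifferentiableOn ℂ (fun z => ∑ l ∈ Icc 1 n, c l * U.hol l z) (ball 0 1) :=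
    DifferentiableOn.fun_sum fun l _ => (differentiableOn_const _).mul (U.hol_diff l)
  refine le_of_le_of_eq (le_of_eq_of_le ?_ (hA _ hd (∑ l ∈ Icc 1 n, C (c l) * U.faber l)
    (fun l => c l / l) n K fun z hz h0 => ?_)) ?_
  · refine Finset.sum_congr rfl fun j _ => ?_
    rw [cf_sum _ (fun l z => c l * U.hol l z)
      (fun l _ => (differentiableOn_const _).mul (U.hol_diff l))]
    simp [cf_const_mul (U.hol_diff _), L]
  · simp only [eval_finsetSum, eval_mul, eval_C]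
    rw [← Finset.sum_add_distrib]
    refine Finset.sum_congr rfl fun l _ => ?_
    rw [U.faber_eq l hz h0]
    ring
  · refine Finset.sum_congr rfl fun l hl => ?_
    have : (0:ℝ) < l := by exact_mod_cast (mem_Icc.1 hl).1
    rw [norm_div, Complex.norm_natCast]
    field_simp

/-- Grunsky inequality, transposed. -/
lemma grunsky_transpose (hA : U.AreaBound) (c : ℕ → ℂ) (n N : ℕ) :
    ∑ k ∈ Icc 1 N, (k:ℝ) * ‖∑ l ∈ Icc 1 n, c l * U.L l k‖ ^ 2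
      ≤ ∑ l ∈ Icc 1 n, ‖c l‖ ^ 2 / l := by
  set S : ℕ → ℂ := fun k => ∑ l ∈ Icc 1 n, c l * U.L l k with hS
  set T : ℕ → ℂ := fun l => ∑ k ∈ Icc 1 N, ((k:ℂ) * starRingEnd ℂ (S k)) * U.L l k with hT
  set A : ℝ := ∑ l ∈ Icc 1 n, ‖c l‖ ^ 2 / l with hA'
  set B : ℝ := ∑ k ∈ Icc 1 N, (k:ℝ) * ‖S k‖ ^ 2 with hB
  have e : (B : ℂ) = ∑ l ∈ Icc 1 n, c l * T l := by
    calc (B : ℂ) = ∑ k ∈ Icc 1 N, ((k:ℂ) * starRingEnd ℂ (S k)) * S k := by
            rw [hB, Complex.ofReal_sum]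
            refine Finset.sum_congr rfl fun k _ => ?_
            rw [mul_assoc, Complex.conj_mul']
            push_cast
            rfl
      _ = ∑ k ∈ Icc 1 N, ∑ l ∈ Icc 1 n, c l * ((k:ℂ) * starRingEnd ℂ (S k) * U.L l k) := by
            refine Finset.sum_congr rfl fun k _ => ?_
            conv_lhs => arg 2; rw [hS]
            rw [Finset.mul_sum]
            exact Finset.sum_congr rfl fun l _ => by ring
      _ = ∑ l ∈ Icc 1 n, c l * T l := by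
            rw [Finset.sum_comm]
            exact Finset.sum_congr rfl fun l _ => by rw [hT, Finset.mul_sum]
  have h1 : ∑ l ∈ Icc 1 n, (l:ℝ) * ‖T l‖ ^ 2 ≤ B := by
    refine (grunsky hA (fun k => (k:ℂ) * starRingEnd ℂ (S k)) N n).trans_eq ?_
    refine Finset.sum_congr rfl fun k hk => ?_
    have : (0:ℝ) < k := by exact_mod_cast (mem_Icc.1 hk).1
    rw [norm_mul, Complex.norm_natCast, Complex.norm_conj]
    field_simp
  have hB0 : 0 ≤ B := Finset.sum_nonneg fun k _ => by positivity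
  have hA0 : 0 ≤ A := Finset.sum_nonneg fun k _ => by positivity
  have h2 : B ≤ ∑ l ∈ Icc 1 n, ‖c l‖ * ‖T l‖ := by
    have := norm_sum_le (Icc 1 n) fun l => c l * T l
    rw [← e, Complex.norm_of_nonneg hB0] at this
    simpa [norm_mul] using this
  have h3 : (∑ l ∈ Icc 1 n, ‖c l‖ * ‖T l‖) ^ 2 ≤ A * B := by
    calc _ ≤ A * ∑ l ∈ Icc 1 n, (l:ℝ) * ‖T l‖ ^ 2 :=
          Finset.sum_sq_le_sum_mul_sum_of_sq_le_mul _ (fun l _ => by positivity)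
            (fun l _ => by positivity) (fun l hl => le_of_eq (by
              have : (0:ℝ) < l := by exact_mod_cast (mem_Icc.1 hl).1
              field_simp))
      _ ≤ A * B := mul_le_mul_of_nonneg_left h1 hA0
  rcases hB0.eq_or_lt with h | h
  · exact h ▸ hA0
  · have : B ^ 2 ≤ A * B := (pow_le_pow_left₀ hB0 h2 2).trans h3
    exact le_of_mul_le_mul_right (by rwa [sq] at this) h

/-- `a_j = ∑_{i ≤ j} (j+1-i) |g_i|²`. -/
noncomputable def rowMass (U : Univ) (j : ℕ) : ℝ :=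
  ∑ i ∈ range (j + 1), ((j + 1 - i : ℕ) : ℝ) * ‖U.gc i‖ ^ 2

/-- The first part of the identity. -/
noncomputable def X₁ (U : Univ) (j k : ℕ) : ℂ :=
  ∑ i ∈ range (j + 1), U.gc i * (((j + 1 - i : ℕ) : ℂ) * U.L (j + 1 - i) k)

/-- The second part of the identity. -/
noncomputable def X₂ (U : Univ) (j k : ℕ) : ℂ :=
  ∑ i ∈ range (k + 1), U.gc i * (((k + 1 - i : ℕ) : ℂ) * U.L j (k + 1 - i))

lemma sum_reflect {M : Type*} [AddCommMonoid M] (F : ℕ → ℕ → M) (j : ℕ) :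
    ∑ i ∈ range (j + 1), F i (j + 1 - i) = ∑ l ∈ Icc 1 (j + 1), F (j + 1 - l) l := by
  refine Finset.sum_nbij' (fun i => j + 1 - i) (fun l => j + 1 - l) ?_ ?_ ?_ ?_ ?_
  · intro i hi; simp only [Finset.mem_range] at hi; simp only [Finset.mem_Icc]; omega
  · intro l hl; simp only [Finset.mem_Icc] at hl; simp only [Finset.mem_range]; omega
  · intro i hi; simp only [Finset.mem_range] at hi; omega
  · intro l hl; simp only [Finset.mem_Icc] at hl; omega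
  · intro i hi
    simp only [Finset.mem_range] at hi
    congr 1
    omega

lemma rowMass_eq (j : ℕ) :
    ∑ l ∈ Icc 1 (j + 1), ‖(l:ℂ) * U.gc (j + 1 - l)‖ ^ 2 / l = U.rowMass j := by
  rw [rowMass, sum_reflect (fun i l => (l:ℝ) * ‖U.gc i‖ ^ 2) j]
  refine Finset.sum_congr rfl fun l hl => ?_
  have : (0:ℝ) < l := by exact_mod_cast (mem_Icc.1 hl).1
  rw [norm_mul, Complex.norm_natCast]
  field_simp

lemma X₁_bound (hA : U.AreaBound) (j N : ℕ) :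
    ∑ k ∈ Icc 1 N, (k:ℝ) * ‖U.X₁ j k‖ ^ 2 ≤ U.rowMass j := by
  refine le_of_eq_of_le ?_ ((grunsky_transpose hA (fun l => (l:ℂ) * U.gc (j + 1 - l)) (j + 1) N
    ).trans_eq (rowMass_eq j))
  refine Finset.sum_congr rfl fun k _ => ?_
  rw [X₁, sum_reflect (fun i l => U.gc i * ((l:ℂ) * U.L l k)) j]
  congr 3
  exact Finset.sum_congr rfl fun l _ => by ring

lemma X₂_bound (hA : U.AreaBound) (k N : ℕ) :
    ∑ j ∈ Icc 1 N, (j:ℝ) * ‖U.X₂ j k‖ ^ 2 ≤ U.rowMass k := by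
  refine le_of_eq_of_le ?_ ((grunsky hA (fun l => (l:ℂ) * U.gc (k + 1 - l)) (k + 1) N
    ).trans_eq (rowMass_eq k))
  refine Finset.sum_congr rfl fun j _ => ?_
  rw [X₂, sum_reflect (fun i l => U.gc i * ((l:ℂ) * U.L j l)) k]
  congr 3
  exact Finset.sum_congr rfl fun l _ => by ring

lemma norm_add_sq_div {x y : ℂ} {p q : ℝ} (hp : 0 < p) (hq : 0 < q) :
    ‖x + y‖ ^ 2 / (p + q) ≤ ‖x‖ ^ 2 / p + ‖y‖ ^ 2 / q := by
  have h0 : ‖x + y‖ ^ 2 ≤ (‖x‖ + ‖y‖) ^ 2 := pow_le_pow_left₀ (norm_nonneg _) (norm_add_le x y) 2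
  refine (div_le_div_of_nonneg_right h0 (by positivity)).trans ?_
  rw [div_add_div _ _ hp.ne' hq.ne', div_le_div_iff₀ (by positivity) (by positivity)]
  nlinarith [sq_nonneg (‖x‖ * q - ‖y‖ * p)]

/-- The weighted inequality. -/
theorem weighted (hA : U.AreaBound) (κ : ℝ) (N : ℕ) :
    ∑ j ∈ Icc 1 N, ∑ k ∈ Icc 1 N,
        (j:ℝ) * k / ((j:ℝ) ^ κ + (k:ℝ) ^ κ) * ‖U.gc (j + k + 1)‖ ^ 2
      ≤ 2 * ∑ j ∈ Icc 1 N, (j:ℝ) / (j:ℝ) ^ κ * U.rowMass j := by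
  have h1 : ∀ j ∈ Icc 1 N, ∀ k ∈ Icc 1 N,
      (j:ℝ) * k / ((j:ℝ) ^ κ + (k:ℝ) ^ κ) * ‖U.gc (j + k + 1)‖ ^ 2 ≤
        (j:ℝ) / (j:ℝ) ^ κ * ((k:ℝ) * ‖U.X₁ j k‖ ^ 2) +
          (k:ℝ) / (k:ℝ) ^ κ * ((j:ℝ) * ‖U.X₂ j k‖ ^ 2) := by
    intro j hj k hk
    have hj' : (0:ℝ) < j := by exact_mod_cast (mem_Icc.1 hj).1
    have hk' : (0:ℝ) < k := by exact_mod_cast (mem_Icc.1 hk).1
    have hp : (0:ℝ) < (j:ℝ) ^ κ := Real.rpow_pos_of_pos hj' κ
    have hq : (0:ℝ) < (k:ℝ) ^ κ := Real.rpow_pos_of_pos hk' κ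
    rw [U.identity (mem_Icc.1 hj).1 (mem_Icc.1 hk).1]
    have := mul_le_mul_of_nonneg_left (norm_add_sq_div (x := U.X₁ j k) (y := U.X₂ j k) hp hq)
      (mul_pos hj' hk').le
    refine le_of_le_of_eq (le_of_eq_of_le ?_ this) ?_
    · simp only [X₁, X₂]; ring
    · ring
  refine (Finset.sum_le_sum fun j hj => Finset.sum_le_sum fun k hk => h1 j hj k hk).trans ?_
  simp only [Finset.sum_add_distrib]
  rw [Finset.sum_comm (f := fun (j k : ℕ) => (k:ℝ) / (k:ℝ) ^ κ * ((j:ℝ) * ‖U.X₂ j k‖ ^ 2)), two_mul]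
  refine add_le_add (Finset.sum_le_sum fun j hj => ?_) (Finset.sum_le_sum fun k hk => ?_)
  · rw [← Finset.mul_sum]
    exact mul_le_mul_of_nonneg_left (X₁_bound hA j N)
      (div_nonneg (Nat.cast_nonneg _) (Real.rpow_nonneg (Nat.cast_nonneg _) _))
  · rw [← Finset.mul_sum]
    exact mul_le_mul_of_nonneg_left (X₂_bound hA k N)
      (div_nonneg (Nat.cast_nonneg _) (Real.rpow_nonneg (Nat.cast_nonneg _) _))

end Univ

end Vale.Agent.P142
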