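/-!
A verified lower Riemann sum for the integral
`∫₀^{1/2} t(1-t)/(t^(33/8) + (1-t)^(33/8)) dt`, in natural-number arithmetic.
-/

namespace Vale.Agent.P142

/-- Integer binary search for an upper bound of the eighth root. -/
def root8 : Nat → Nat → Nat → Nat → Nat
  | 0, _, hi, _ => hi
  | fuel + 1, lo, hi, x =>
    let m := (lo + hi) / 2
    if x ≤ m ^ 8 then root8 fuel lo m x else root8 fuel m hi x

theorem le_root8 : ∀ fuel lo hi x, x ≤ hi ^ 8 → x ≤ root8 fuel lo hi x ^ 8
  | 0, _, _, _, h => h
  | fuel + 1, lo, hi, x, h => by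
    unfold root8
    simp only []
    split
    · next h' => exact le_root8 fuel lo _ x h'
    · exact le_root8 fuel _ hi x h

/-- `upper i` is at least `10^6 * (i/4000)^(1/8)`. -/
def upper (i : Nat) : Nat := root8 21 0 1000000 ((i * 1000000 ^ 8 + 3999) / 4000)

/-- The `i`-th lower value, scaled by `10^6`. -/
def low (i : Nat) : Nat :=
  (1000000 * (i * (4000 - i) * 4000 ^ 2 * 1000000)) /
    (i ^ 4 * upper i + (4000 - i) ^ 4 * upper (4000 - i))

/-- The sum of the lower values. -/
def lowSum : Nat → Nat
  | 0 => 0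
  | n + 1 => lowSum n + low n

theorem cert : 128 * 4000 * 1000000 < lowSum 2000 * 2 * 153 := by decide +kernel

end Vale.Agent.P142
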