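import Vale.Agent.P142.Basic

/-!
Calculus of Taylor coefficients at `0` of functions holomorphic on the unit disc.
-/

open Complex Metric Filter Topology Finset

namespace Vale.Agent.P142

variable {a b h : ℂ → ℂ}

lemma cf_congr (H : a =ᶠ[𝓝 0] b) (n : ℕ) : cf a n = cf b n := by
  unfold cf; rw [H.iteratedDeriv_eq n]

lemma ball_mem_nhds_zero : ball (0:ℂ) 1 ∈ 𝓝 (0:ℂ) := ball_mem_nhds _ one_pos

lemma cf_congr_on (H : ∀ z ∈ ball (0:ℂ) 1, a z = b z) (n : ℕ) : cf a n = cf b n :=
  cf_congr (eventually_of_mem ball_mem_nhds_zero H) n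

lemma contDiffAt_zero (ha : DifferentiableOn ℂ a (ball 0 1)) (n : WithTop ℕ∞) :
    ContDiffAt ℂ n a 0 :=
  (ha.analyticAt ball_mem_nhds_zero).contDiffAt

lemma cf_zero_apply (h : ℂ → ℂ) : cf h 0 = h 0 := by simp [cf]

lemma cf_mul (ha : DifferentiableOn ℂ a (ball 0 1)) (hb : DifferentiableOn ℂ b (ball 0 1))
    (n : ℕ) : cf (fun z => a z * b z) n = ∑ i ∈ range (n + 1), cf a i * cf b (n - i) := by
  unfold cf
  rw [iteratedDeriv_fun_mul (contDiffAt_zero ha _) (contDiffAt_zero hb _), Finset.sum_div]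
  refine Finset.sum_congr rfl fun i hi => ?_
  have hin : i ≤ n := by simpa [Finset.mem_range, Nat.lt_succ_iff] using hi
  have e : ((n.choose i : ℂ)) * i.factorial * (n - i).factorial = n.factorial := by
    exact_mod_cast Nat.choose_mul_factorial_mul_factorial hin
  have h1 : (i.factorial : ℂ) ≠ 0 := Nat.cast_ne_zero.2 i.factorial_ne_zero
  have h2 : ((n - i).factorial : ℂ) ≠ 0 := Nat.cast_ne_zero.2 (n - i).factorial_ne_zero
  have h3 : (n.factorial : ℂ) ≠ 0 := Nat.cast_ne_zero.2 n.factorial_ne_zero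
  rw [← e]
  have h4 : (n.choose i : ℂ) ≠ 0 := Nat.cast_ne_zero.2 (Nat.choose_pos hin).ne'
  field_simp

lemma cf_const (c : ℂ) (n : ℕ) : cf (fun _ => c) n = if n = 0 then c else 0 := by
  unfold cf
  rw [iteratedDeriv_const]
  split <;> simp [*]

lemma cf_deriv (h : ℂ → ℂ) (n : ℕ) : cf (deriv h) n = (n + 1) * cf h (n + 1) := by
  unfold cf
  rw [iteratedDeriv_succ', Nat.factorial_succ]
  have h3 : (n.factorial : ℂ) ≠ 0 := Nat.cast_ne_zero.2 n.factorial_ne_zero
  push_cast
  field_simp

lemma cf_add (ha : DifferentiableOn ℂ a (ball 0 1)) (hb : DifferentiableOn ℂ b (ball 0 1))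
    (n : ℕ) : cf (fun z => a z + b z) n = cf a n + cf b n := by
  unfold cf
  rw [iteratedDeriv_fun_add (contDiffAt_zero ha _) (contDiffAt_zero hb _), add_div]

lemma cf_const_mul (ha : DifferentiableOn ℂ a (ball 0 1)) (c : ℂ) (n : ℕ) :
    cf (fun z => c * a z) n = c * cf a n := by
  rw [cf_mul (differentiableOn_const c) ha, Finset.sum_eq_single 0]
  · simp [cf_zero_apply]
  · intro i _ hi; simp [cf_const, hi]
  · simp

lemma cf_sum {ι : Type*} (s : Finset ι) (F : ι → ℂ → ℂ)
    (hF : ∀ i ∈ s, DifferentiableOn ℂ (F i) (ball 0 1)) (n : ℕ) :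
    cf (fun z => ∑ i ∈ s, F i z) n = ∑ i ∈ s, cf (F i) n := by
  classical
  induction s using Finset.induction with
  | empty => simp [cf_const]
  | insert i s hi ih =>
    simp only [Finset.sum_insert hi]
    rw [cf_add (hF i (mem_insert_self i s))
      (DifferentiableOn.fun_sum fun j hj => hF j (mem_insert_of_mem hj)),
      ih fun j hj => hF j (mem_insert_of_mem hj)]

lemma differentiableOn_X : DifferentiableOn ℂ (fun z : ℂ => z) (ball 0 1) := differentiableOn_id

lemma differentiableOn_X_mul (ha : DifferentiableOn ℂ a (ball 0 1)) :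
    DifferentiableOn ℂ (fun z => z * a z) (ball 0 1) := differentiableOn_X.mul ha

lemma cf_id_mul (ha : DifferentiableOn ℂ a (ball 0 1)) (n : ℕ) :
    cf (fun z => z * a z) (n + 1) = cf a n := by
  rw [cf_mul differentiableOn_X ha, Finset.sum_eq_single 1]
  · simp [cf]
  · intro i _ hi
    have : iteratedDeriv i (fun z : ℂ => z) 0 = 0 := by
      simp [iteratedDeriv_fun_id_zero, hi]
    simp [cf, this]
  · intro h1; simp at h1

/-- Removing the `m` lowest Taylor terms. -/
lemma exists_tail (hh : DifferentiableOn ℂ h (ball 0 1)) (m : ℕ) :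
    ∃ T : ℂ → ℂ, DifferentiableOn ℂ T (ball 0 1) ∧
      (∀ z ∈ ball (0:ℂ) 1, h z = (∑ i ∈ range m, cf h i * z ^ i) + z ^ m * T z) ∧
      ∀ j, cf T j = cf h (j + m) := by
  induction m with
  | zero => exact ⟨h, hh, fun z _ => by simp, fun j => rfl⟩
  | succ m ih =>
    obtain ⟨T, hT, hTe, hTc⟩ := ih
    have hd : DifferentiableOn ℂ (dslope T 0) (ball 0 1) :=
      (Complex.differentiableOn_dslope ball_mem_nhds_zero).2 hT
    have hs : ∀ z : ℂ, T z = T 0 + z * dslope T 0 z := by
      intro z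
      have := sub_smul_dslope T 0 z
      simp only [sub_zero, smul_eq_mul] at this
      rw [this]; ring
    refine ⟨dslope T 0, hd, fun z hz => ?_, fun j => ?_⟩
    · have h0 : T 0 = cf h m := by rw [← cf_zero_apply T, hTc 0, Nat.zero_add]
      rw [hTe z hz, Finset.sum_range_succ, hs z, h0]
      ring
    · have e : cf T (j + 1) = cf (dslope T 0) j := by
        rw [cf_congr_on (fun z _ => hs z) (j + 1),
          cf_add (differentiableOn_const _) (differentiableOn_X_mul hd), cf_const,
          cf_id_mul hd]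
        simp
      rw [← e, hTc]
      congr 1
      omega

end Vale.Agent.P142
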