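import Vale.Agent.P142.Coeff

/-!
Faber polynomials of a univalent function on the disc, and the coefficient identity which
expresses the invariance of the Grunsky kernel under translations of the image.
-/

open Complex Metric Filter Topology Finset Polynomial

namespace Vale.Agent.P142

/-- A function holomorphic and injective on the unit disc with the normalization
`f 0 = 0`, `deriv f 0 = 1`, and nowhere vanishing derivative. -/
structure Univ where
  f : ℂ → ℂ
  diff : DifferentiableOn ℂ f (ball 0 1)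
  inj : Set.InjOn f (ball 0 1)
  map_zero : f 0 = 0
  deriv_zero : deriv f 0 = 1
  deriv_ne : ∀ z ∈ ball (0:ℂ) 1, deriv f z ≠ 0

namespace Univ

variable (U : Univ)

/-- `g = 1 / f'`. -/
noncomputable def g (z : ℂ) : ℂ := (deriv U.f z)⁻¹

/-- `φ = f(z) / z`. -/
noncomputable def phi : ℂ → ℂ := dslope U.f 0

lemma g_diff : DifferentiableOn ℂ U.g (ball 0 1) :=
  (U.diff.deriv isOpen_ball).inv U.deriv_ne

lemma phi_diff : DifferentiableOn ℂ U.phi (ball 0 1) :=
  (Complex.differentiableOn_dslope ball_mem_nhds_zero).2 U.diff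

lemma mul_phi (z : ℂ) : U.f z = z * U.phi z := by
  have := sub_smul_dslope U.f 0 z
  simp only [sub_zero, smul_eq_mul, U.map_zero] at this
  exact this.symm

lemma phi_zero : U.phi 0 = 1 := by simp [phi, U.deriv_zero]

lemma f_ne {z : ℂ} (hz : z ∈ ball (0:ℂ) 1) (h0 : z ≠ 0) : U.f z ≠ 0 := fun e =>
  h0 (U.inj hz (mem_ball_self one_pos) (e.trans U.map_zero.symm))

lemma phi_ne {z : ℂ} (hz : z ∈ ball (0:ℂ) 1) : U.phi z ≠ 0 := by
  rcases eq_or_ne z 0 with rfl | h0
  · simp [phi_zero]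
  · intro e; exact U.f_ne hz h0 (by simp [U.mul_phi, e])

lemma exists_poly (n : ℕ) : ∀ ψ : ℂ → ℂ, DifferentiableOn ℂ ψ (ball 0 1) →
    ∃ (Q : ℂ[X]) (h : ℂ → ℂ), DifferentiableOn ℂ h (ball 0 1) ∧
      ∀ z ∈ ball (0:ℂ) 1, z ≠ 0 → Q.eval (U.f z)⁻¹ = ψ z / z ^ n + h z := by
  induction n with
  | zero =>
    intro ψ hψ
    exact ⟨0, fun z => -ψ z, hψ.neg, fun z _ _ => by simp⟩
  | succ n ih =>
    intro ψ hψ
    set num : ℂ → ℂ := fun z => ψ 0 * (U.phi z)⁻¹ ^ (n + 1) - ψ z with hnum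
    have hd : DifferentiableOn ℂ num (ball 0 1) :=
      ((differentiableOn_const _).mul ((U.phi_diff.inv fun z hz => U.phi_ne hz).pow _)).sub hψ
    have hd' : DifferentiableOn ℂ (dslope num 0) (ball 0 1) :=
      (Complex.differentiableOn_dslope ball_mem_nhds_zero).2 hd
    obtain ⟨Q, h, hh, hQ⟩ := ih _ hd'
    refine ⟨C (ψ 0) * X ^ (n + 1) - Q, fun z => -h z, hh.neg, fun z hz h0 => ?_⟩
    have e : z * dslope num 0 z = num z := by
      have := sub_smul_dslope num 0 z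
      have hn0 : num 0 = 0 := by simp [hnum, U.phi_zero]
      simpa [hn0] using this
    have hp := U.phi_ne hz
    simp only [eval_sub, eval_mul, eval_C, eval_pow, eval_X, hQ z hz h0]
    have e2 : dslope num 0 z = num z / z := by rw [← e]; field_simp
    rw [e2, U.mul_phi z, hnum]
    simp only [inv_pow, mul_pow]
    field_simp
    ring

lemma exists_faber (k : ℕ) : ∃ (Q : ℂ[X]) (h : ℂ → ℂ), DifferentiableOn ℂ h (ball 0 1) ∧
    ∀ z ∈ ball (0:ℂ) 1, z ≠ 0 → Q.eval (U.f z)⁻¹ = (k : ℂ)⁻¹ / z ^ k + h z :=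
  U.exists_poly k _ (differentiableOn_const _)

/-- Faber polynomials. -/
noncomputable def faber (k : ℕ) : ℂ[X] := (U.exists_faber k).choose

/-- Holomorphic parts. -/
noncomputable def hol (k : ℕ) : ℂ → ℂ := (U.exists_faber k).choose_spec.choose

lemma hol_diff (k : ℕ) : DifferentiableOn ℂ (U.hol k) (ball 0 1) :=
  (U.exists_faber k).choose_spec.choose_spec.1

lemma faber_eq (k : ℕ) {z : ℂ} (hz : z ∈ ball (0:ℂ) 1) (h0 : z ≠ 0) :
    (U.faber k).eval (U.f z)⁻¹ = (k : ℂ)⁻¹ / z ^ k + U.hol k z :=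
  (U.exists_faber k).choose_spec.choose_spec.2 z hz h0

/-- The coefficient `L_{jl}`. -/
noncomputable def L (j l : ℕ) : ℂ := cf (U.hol l) j

/-- Taylor coefficients of `g`. -/
noncomputable def gc (n : ℕ) : ℂ := cf U.g n

lemma deriv_faber (k : ℕ) (hk : 1 ≤ k) {z : ℂ} (hz : z ∈ ball (0:ℂ) 1) (h0 : z ≠ 0) :
    -((derivative (U.faber k)).eval (U.f z)⁻¹ * (U.f z)⁻¹ ^ 2)
      = U.g z * (-(1 / z ^ (k + 1)) + deriv (U.hol k) z) := by
  have hU : ∀ᶠ w in 𝓝 z, w ∈ ball (0:ℂ) 1 ∧ w ≠ 0 :=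
    (isOpen_ball.eventually_mem hz).and (isOpen_ne.eventually_mem h0)
  have e : (fun w => (U.faber k).eval (U.f w)⁻¹) =ᶠ[𝓝 z]
      fun w => (k : ℂ)⁻¹ / w ^ k + U.hol k w :=
    hU.mono fun w hw => U.faber_eq k hw.1 hw.2
  have hf' : HasDerivAt U.f (deriv U.f z) z :=
    (U.diff.differentiableAt (isOpen_ball.mem_nhds hz)).hasDerivAt
  have hh' : HasDerivAt (U.hol k) (deriv (U.hol k) z) z :=
    ((U.hol_diff k).differentiableAt (isOpen_ball.mem_nhds hz)).hasDerivAt
  have d1 := ((U.faber k).hasDerivAt (U.f z)⁻¹).comp z (hf'.fun_inv (U.f_ne hz h0))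
  have d2 := (((hasDerivAt_pow k z).fun_inv (pow_ne_zero k h0)).const_mul (k : ℂ)⁻¹).fun_add hh'
  have d3 : HasDerivAt (fun w => (k : ℂ)⁻¹ / w ^ k + U.hol k w)
      ((k : ℂ)⁻¹ * (-((k : ℂ) * z ^ (k - 1)) / (z ^ k) ^ 2) + deriv (U.hol k) z) z :=
    d2.congr_of_eventuallyEq (Filter.Eventually.of_forall fun w => by simp [div_eq_mul_inv])
  have := d1.unique (d3.congr_of_eventuallyEq e)
  have hne := U.deriv_ne z hz
  have hfz := U.f_ne hz h0
  have hk0 : (k : ℂ) ≠ 0 := by exact_mod_cast (by omega : k ≠ 0)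
  obtain ⟨i, rfl⟩ : ∃ i, k = i + 1 := ⟨k - 1, by omega⟩
  simp only [Nat.add_sub_cancel] at this
  have hR : (((i + 1 : ℕ) : ℂ))⁻¹ * (-(((i + 1 : ℕ) : ℂ) * z ^ i) / (z ^ (i + 1)) ^ 2)
      = -(1 / z ^ (i + 1 + 1)) := by
    field_simp
    ring
  rw [hR] at this
  rw [← this, g]
  field_simp

/-- The coefficient identity. -/
theorem identity {j k : ℕ} (hj : 1 ≤ j) (hk : 1 ≤ k) :
    U.gc (j + k + 1) =
      (∑ i ∈ range (j + 1), U.gc i * (((j + 1 - i : ℕ) : ℂ) * U.L (j + 1 - i) k)) +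
      ∑ i ∈ range (k + 1), U.gc i * (((k + 1 - i : ℕ) : ℂ) * U.L j (k + 1 - i)) := by
  obtain ⟨T, hT, hTe, hTc⟩ := exists_tail U.g_diff (k + 1)
  set P : ℂ[X] := -(derivative (U.faber k) * X ^ 2) +
    ∑ i ∈ range (k + 1), C (U.gc i * ((k + 1 - i : ℕ) : ℂ)) * U.faber (k + 1 - i) with hP
  set E1 : ℂ → ℂ := fun z => ∑ i ∈ range (k + 1),
    (U.gc i * ((k + 1 - i : ℕ) : ℂ)) * U.hol (k + 1 - i) z with hE1
  set E : ℂ → ℂ := fun z => (-1) * T z + (U.g z * deriv (U.hol k) z + E1 z) with hE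
  have dE1 : DifferentiableOn ℂ E1 (ball 0 1) :=
    DifferentiableOn.fun_sum fun i _ => (differentiableOn_const _).mul (U.hol_diff _)
  have dgd : DifferentiableOn ℂ (fun z => U.g z * deriv (U.hol k) z) (ball 0 1) :=
    U.g_diff.mul ((U.hol_diff k).deriv isOpen_ball)
  have dnT : DifferentiableOn ℂ (fun z => (-1:ℂ) * T z) (ball 0 1) :=
    (differentiableOn_const _).mul hT
  have dE : DifferentiableOn ℂ E (ball 0 1) := dnT.add (dgd.add dE1)
  have hPE : ∀ z ∈ ball (0:ℂ) 1, z ≠ 0 → P.eval (U.f z)⁻¹ = E z := by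
    intro z hz h0
    have e1 : ∀ i ∈ range (k + 1), U.gc i * ((k + 1 - i : ℕ) : ℂ) *
        (U.faber (k + 1 - i)).eval (U.f z)⁻¹ = U.gc i * z ^ i / z ^ (k + 1) +
          U.gc i * ((k + 1 - i : ℕ) : ℂ) * U.hol (k + 1 - i) z := by
      intro i hi
      have hik : i ≤ k := by simpa [Nat.lt_succ_iff] using hi
      have hl : ((k + 1 - i : ℕ) : ℂ) ≠ 0 := by exact_mod_cast (by omega : k + 1 - i ≠ 0)
      rw [U.faber_eq _ hz h0]
      have : z ^ (k + 1) = z ^ i * z ^ (k + 1 - i) := by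
        rw [← pow_add]; congr 1; omega
      rw [this]
      field_simp
    have hg : (∑ i ∈ range (k + 1), U.gc i * z ^ i) = U.g z - z ^ (k + 1) * T z := by
      rw [hTe z hz]; simp [gc]
    simp only [hP, eval_add, eval_neg, eval_mul, eval_finsetSum, eval_C, eval_pow, eval_X]
    rw [U.deriv_faber k hk hz h0, Finset.sum_congr rfl e1, Finset.sum_add_distrib,
      ← Finset.sum_div, hg]
    simp only [hE, hE1]
    field_simp
    ring
  have hdeg : P.degree ≤ 0 := by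
    by_contra hd
    rw [not_le] at hd
    have hu : Tendsto (fun z => ‖(U.f z)⁻¹‖) (𝓝[≠] (0:ℂ)) atTop := by
      have hc : ContinuousAt U.f 0 :=
        (U.diff.differentiableAt ball_mem_nhds_zero).continuousAt
      have h1 : Tendsto U.f (𝓝[≠] (0:ℂ)) (𝓝[≠] (0:ℂ)) := by
        refine tendsto_nhdsWithin_iff.2 ⟨?_, ?_⟩
        · have := hc.tendsto; rw [U.map_zero] at this
          exact this.mono_left nhdsWithin_le_nhds
        · filter_upwards [self_mem_nhdsWithin, nhdsWithin_le_nhds ball_mem_nhds_zero]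
            with z hz hzb using U.f_ne hzb hz
      exact (tendsto_norm_inv_nhdsNE_zero_atTop).comp h1
    have h2 := P.tendsto_norm_atTop hd hu
    have h3 : Tendsto (fun z => ‖E z‖) (𝓝[≠] (0:ℂ)) (𝓝 ‖E 0‖) :=
      ((dE.differentiableAt ball_mem_nhds_zero).continuousAt.norm.tendsto).mono_left
        nhdsWithin_le_nhds
    have h4 : Tendsto (fun z => ‖E z‖) (𝓝[≠] (0:ℂ)) atTop := h2.congr' (by
      filter_upwards [self_mem_nhdsWithin, nhdsWithin_le_nhds ball_mem_nhds_zero]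
        with z hz hzb
      rw [hPE z hzb hz])
    exact not_tendsto_atTop_of_tendsto_nhds h3 h4
  have hconst : E =ᶠ[𝓝 0] fun _ => P.coeff 0 := by
    have hc : ContinuousAt E 0 := (dE.differentiableAt ball_mem_nhds_zero).continuousAt
    have heq : ∀ z ∈ ball (0:ℂ) 1, z ≠ 0 → E z = P.coeff 0 := fun z hz h0 => by
      rw [← hPE z hz h0, eq_C_of_degree_le_zero hdeg]; simp
    have h1 : Tendsto E (𝓝[≠] (0:ℂ)) (𝓝 (P.coeff 0)) :=
      tendsto_const_nhds.congr' (by
        filter_upwards [self_mem_nhdsWithin, nhdsWithin_le_nhds ball_mem_nhds_zero]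
          with z hz hzb using (heq z hzb hz).symm)
    have h0 : E 0 = P.coeff 0 :=
      tendsto_nhds_unique (hc.tendsto.mono_left nhdsWithin_le_nhds) h1
    filter_upwards [ball_mem_nhds_zero] with z hz
    rcases eq_or_ne z 0 with rfl | hz0
    · exact h0
    · exact heq z hz hz0
  have key := cf_congr hconst j
  rw [cf_const, if_neg (by omega), hE,
    cf_add dnT (b := fun z => U.g z * deriv (U.hol k) z + E1 z) (dgd.add dE1), cf_const_mul hT,
    cf_add dgd dE1, hE1,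
    cf_sum _ (fun i z => U.gc i * ((k + 1 - i : ℕ) : ℂ) * U.hol (k + 1 - i) z)
      (fun i _ => (differentiableOn_const _).mul (U.hol_diff _)),
    cf_mul U.g_diff ((U.hol_diff k).deriv isOpen_ball), hTc] at key
  simp only [cf_const_mul (U.hol_diff _), cf_deriv, neg_mul, one_mul] at key
  have : U.gc (j + k + 1) = cf U.g (j + (k + 1)) := by simp [gc, add_assoc]
  rw [this]
  have e2 : (∑ i ∈ range (j + 1), cf U.g i * ((((j - i : ℕ) : ℂ) + 1) * cf (U.hol k) (j - i + 1)))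
      = ∑ i ∈ range (j + 1), U.gc i * (((j + 1 - i : ℕ) : ℂ) * U.L (j + 1 - i) k) := by
    refine Finset.sum_congr rfl fun i hi => ?_
    have hij : i ≤ j := by simpa [Nat.lt_succ_iff] using hi
    rw [show j + 1 - i = j - i + 1 by omega]
    push_cast [gc, L]
    rfl
  have e3 : (∑ i ∈ range (k + 1), U.gc i * ((k + 1 - i : ℕ) : ℂ) * cf (U.hol (k + 1 - i)) j)
      = ∑ i ∈ range (k + 1), U.gc i * (((k + 1 - i : ℕ) : ℂ) * U.L j (k + 1 - i)) := by
    simp [L, mul_assoc]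
  rw [← e2, ← e3]
  linear_combination -key

end Univ

end Vale.Agent.P142
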