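import Vale.Agent.P142.Means

/-!
Statements in the variables of Brennan's conjecture, from the area theorem.
-/

open Complex Metric Set Filter Topology MeasureTheory
open scoped ENNReal

namespace Vale.Agent.P142

/-- The area theorem, as a proposition. -/
def AreaThm : Prop := ∀ U : Univ, U.AreaBound

/-- Injective holomorphic functions have nonvanishing derivative, as a proposition. -/
def DerivNe : Prop :=
  ∀ (f : ℂ → ℂ) (U : Set ℂ), IsOpen U → DifferentiableOn ℂ f U → InjOn f U →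
    ∀ z ∈ U, deriv f z ≠ 0

/-- Normalize a univalent function. -/
noncomputable def normalize (f : ℂ → ℂ) (z : ℂ) : ℂ := (f z - f 0) / deriv f 0

variable (hA : AreaThm) (hD : DerivNe) {f : ℂ → ℂ}

include hD in
lemma exists_univ (hf : DifferentiableOn ℂ f (ball 0 1)) (hinj : InjOn f (ball 0 1)) :
    ∃ U : Univ, ∀ z ∈ ball (0:ℂ) 1, deriv U.f z = deriv f z / deriv f 0 := by
  have hne := hD f _ isOpen_ball hf hinj
  have h0 : deriv f 0 ≠ 0 := hne 0 (mem_ball_self one_pos)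
  have hd : ∀ z ∈ ball (0:ℂ) 1, HasDerivAt (normalize f) (deriv f z / deriv f 0) z :=
    fun z hz => ((hf.differentiableAt (isOpen_ball.mem_nhds hz)).hasDerivAt.sub_const _).div_const _
  refine ⟨⟨normalize f, fun z hz => (hd z hz).differentiableAt.differentiableWithinAt, ?_,
    by simp [normalize], ?_, ?_⟩, fun z hz => (hd z hz).deriv⟩
  · intro a ha b hb e
    refine hinj ha hb ?_
    simpa [normalize, h0] using e
  · rw [(hd 0 (mem_ball_self one_pos)).deriv, div_self h0]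
  · intro z hz
    rw [(hd z hz).deriv]
    exact div_ne_zero (hne z hz) h0

include hA hD in
theorem disk_area (hf : DifferentiableOn ℂ f (ball 0 1)) (hinj : InjOn f (ball 0 1))
    {t : ℝ} (ht : -(16 / 9) < t) (ht0 : t ≤ 0) :
    ∫⁻ z in ball (0:ℂ) 1, ENNReal.ofReal (‖deriv f z‖ ^ t) < ⊤ := by
  obtain ⟨U, hU⟩ := exists_univ hD hf hinj
  have h0 : deriv f 0 ≠ 0 := hD f _ isOpen_ball hf hinj 0 (mem_ball_self one_pos)
  have h := Univ.area_bound (U := U) (hA U) (p := -t) (by linarith) (by linarith)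
  have e : ∀ z ∈ ball (0:ℂ) 1, ENNReal.ofReal (‖deriv f z‖ ^ t) =
      ENNReal.ofReal (‖deriv f 0‖ ^ t) * ENNReal.ofReal (‖U.g z‖ ^ (-t)) := by
    intro z hz
    have hne := hD f _ isOpen_ball hf hinj z hz
    rw [← ENNReal.ofReal_mul (Real.rpow_nonneg (norm_nonneg _) _), Univ.g, norm_inv,
      Real.inv_rpow (norm_nonneg _), ← Real.rpow_neg (norm_nonneg _), neg_neg, hU z hz, norm_div,
      ← Real.mul_rpow (norm_nonneg _) (div_nonneg (norm_nonneg _) (norm_nonneg _)),
      mul_div_cancel₀ _ (norm_ne_zero_iff.2 h0)]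
  rw [setLIntegral_congr_fun measurableSet_ball e,
    lintegral_const_mul' _ _ ENNReal.ofReal_ne_top]
  exact ENNReal.mul_lt_top ENNReal.ofReal_lt_top h

include hA hD in
/-- Change of variables to the conformal map `φ : W → 𝔻`. -/
theorem domain_area {W : Set ℂ} {φ : ℂ → ℂ} (hW : IsOpen W) (hφ : DifferentiableOn ℂ φ W)
    (hbij : BijOn φ W (ball 0 1)) {s : ℝ} (hs : 2 ≤ s) (hs' : s < 34 / 9) :
    ∫⁻ w in W, ENNReal.ofReal (‖deriv φ w‖ ^ s) < ⊤ := by
  set f := Function.invFunOn φ W with hf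
  have hinv := hbij.invOn_invFunOn
  have hmaps : MapsTo f (ball 0 1) W := hbij.surjOn.mapsTo_invFunOn
  have hcont : ∀ z ∈ ball (0:ℂ) 1, ContinuousAt f z := by
    intro z hz
    rw [continuousAt_def]
    intro V hV
    obtain ⟨O, hOV, hO, hzO⟩ := _root_.mem_nhds_iff.1 (inter_mem hV (hW.mem_nhds (hmaps hz)))
    have hmem : φ '' O ∈ 𝓝 z := by
      have ha : AnalyticAt ℂ φ (f z) := hφ.analyticAt (hW.mem_nhds (hmaps hz))
      rcases ha.eventually_constant_or_nhds_le_map_nhds with h | h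
      · exfalso
        exact hD φ W hW hφ hbij.injOn _ (hmaps hz)
          (by rw [Filter.EventuallyEq.deriv_eq (h : φ =ᶠ[𝓝 (f z)] fun _ => φ (f z)), deriv_const])
      · have he : φ (f z) = z := hinv.2 hz
        rw [← he]
        exact h (image_mem_map (hO.mem_nhds hzO))
    refine mem_of_superset hmem ?_
    rintro _ ⟨w, hw, rfl⟩
    have hwW : w ∈ W := (hOV hw).2
    show f (φ w) ∈ V
    rw [hf, hinv.1 hwW]
    exact (hOV hw).1
  have hder : ∀ z ∈ ball (0:ℂ) 1, HasDerivAt f (deriv φ (f z))⁻¹ z := fun z hz =>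
    HasDerivAt.of_local_left_inverse (hcont z hz)
      (hφ.differentiableAt (hW.mem_nhds (hmaps hz))).hasDerivAt
      (hD φ W hW hφ hbij.injOn _ (hmaps hz))
      (eventually_of_mem (isOpen_ball.mem_nhds hz) fun y hy => hinv.2 hy)
  have hfd : DifferentiableOn ℂ f (ball 0 1) := fun z hz =>
    (hder z hz).differentiableAt.differentiableWithinAt
  have hfi : InjOn f (ball 0 1) := hinv.2.injOn
  have himg : f '' ball 0 1 = W := by
    refine Subset.antisymm (image_subset_iff.2 hmaps) fun w hw => ⟨φ w, hbij.mapsTo hw, ?_⟩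
    rw [hf]; exact hinv.1 hw
  rw [← himg, lintegral_image_eq_lintegral_abs_det_fderiv_mul volume measurableSet_ball
    (f' := fun z => ((ContinuousLinearMap.toSpanSingleton ℂ ((deriv φ (f z))⁻¹)).restrictScalars ℝ))
    (fun z hz => ((hder z hz).hasFDerivAt.restrictScalars ℝ).hasFDerivWithinAt) hfi]
  refine lt_of_eq_of_lt (setLIntegral_congr_fun measurableSet_ball fun z hz => ?_)
    (disk_area hA hD hfd hfi (t := 2 - s) (by linarith) (by linarith))
  have hne : deriv φ (f z) ≠ 0 := hD φ W hW hφ hbij.injOn _ (hmaps hz)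
  have hdet : ((ContinuousLinearMap.toSpanSingleton ℂ ((deriv φ (f z))⁻¹)).restrictScalars ℝ).det
      = ‖deriv φ (f z)‖⁻¹ ^ 2 := by
    have e : (((ContinuousLinearMap.toSpanSingleton ℂ ((deriv φ (f z))⁻¹)).restrictScalars ℝ
        ) : ℂ →ₗ[ℝ] ℂ) = Algebra.lmul ℝ ℂ (deriv φ (f z))⁻¹ := by
      ext w; simp [mul_comm]
    rw [ContinuousLinearMap.det, e, ← Algebra.norm_apply, Algebra.norm_complex_apply,
      Complex.normSq_eq_norm_sq, norm_inv]
  rw [hdet, abs_of_nonneg (by positivity), ← ENNReal.ofReal_mul (by positivity),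
    (hder z hz).deriv, norm_inv]
  congr 1
  have hp : 0 < ‖deriv φ (f z)‖ := norm_pos_iff.2 hne
  rw [Real.inv_rpow hp.le, ← Real.rpow_neg hp.le, inv_pow, ← Real.rpow_two,
    ← Real.rpow_neg hp.le, ← Real.rpow_add hp]
  congr 1
  ring

include hA in
theorem means (U : Univ) :
    ∃ C : ℝ, ∀ r : ℝ, 0 ≤ r → r < 1 →
      (1 / (2 * Real.pi)) * ∫ θ in (-Real.pi)..Real.pi,
        ‖deriv U.f ((r:ℂ) * exp (θ * I))‖ ^ (-2 : ℝ) ≤ C * (1 - r) ^ (-(9/8:ℝ)) := by
  obtain ⟨C, hC⟩ := Univ.mean_bound (U := U) (hA U)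
  refine ⟨1 / (2 * Real.pi) * C, fun r h0 h1 => ?_⟩
  rw [mul_assoc _ C]
  refine mul_le_mul_of_nonneg_left (le_of_eq_of_le ?_ (hC r h0 h1)) (by positivity)
  refine intervalIntegral.integral_congr fun θ _ => ?_
  simp only [Univ.g, norm_inv, Real.rpow_neg (norm_nonneg _), Real.rpow_two, inv_pow]

include hA in
theorem beta (U : Univ) :
    limsup (fun r : ℝ => ((Real.log ((1 / (2 * Real.pi)) * ∫ θ in (-Real.pi)..Real.pi,
        ‖deriv U.f ((r:ℂ) * exp (θ * I))‖ ^ (-2 : ℝ)) / Real.log (1 / (1 - r)) : ℝ) : EReal))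
      (𝓝[<] 1) ≤ ((9/8 : ℝ) : EReal) := by
  obtain ⟨C, hC⟩ := means hA U
  set C' := max C 1 with hC'
  have hC1 : 1 ≤ C' := le_max_right _ _
  have hlog : Tendsto (fun r : ℝ => Real.log (1 / (1 - r))) (𝓝[<] 1) atTop := by
    refine Real.tendsto_log_atTop.comp ?_
    simp only [one_div]
    refine tendsto_inv_nhdsGT_zero.comp (tendsto_nhdsWithin_iff.2 ⟨?_, ?_⟩)
    · have : Tendsto (fun r : ℝ => 1 - r) (𝓝 1) (𝓝 (1 - 1)) := tendsto_id.const_sub 1
      rw [sub_self] at this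
      exact this.mono_left nhdsWithin_le_nhds
    · filter_upwards [self_mem_nhdsWithin] with r hr using sub_pos.2 (mem_Iio.1 hr)
  have hev : ∀ᶠ (r : ℝ) in 𝓝[<] (1:ℝ),
      ((Real.log ((1 / (2 * Real.pi)) * ∫ θ in (-Real.pi)..Real.pi,
        ‖deriv U.f ((r:ℂ) * exp (θ * I))‖ ^ (-2 : ℝ)) / Real.log (1 / (1 - r)) : ℝ) : EReal)
      ≤ ((Real.log C' / Real.log (1 / (1 - r)) + 9/8 : ℝ) : EReal) := by
    filter_upwards [self_mem_nhdsWithin, nhdsWithin_le_nhds (Ioi_mem_nhds one_pos),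
      hlog.eventually_gt_atTop 0] with r hr1 hr0 hl
    have hs : 0 < 1 - r := sub_pos.2 (mem_Iio.1 hr1)
    set M := (1 / (2 * Real.pi)) * ∫ θ in (-Real.pi)..Real.pi,
      ‖deriv U.f ((r:ℂ) * exp (θ * I))‖ ^ (-2 : ℝ) with hM
    have hle : M ≤ C' * (1 - r) ^ (-(9/8:ℝ)) := (hC r (le_of_lt hr0) (mem_Iio.1 hr1)).trans
      (mul_le_mul_of_nonneg_right (le_max_left _ _) (Real.rpow_nonneg hs.le _))
    have hMlog : Real.log M ≤ Real.log C' + 9/8 * Real.log (1 / (1 - r)) := by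
      have e : Real.log (C' * (1 - r) ^ (-(9/8:ℝ))) =
          Real.log C' + 9/8 * Real.log (1 / (1 - r)) := by
        rw [Real.log_mul (by linarith) (Real.rpow_pos_of_pos hs _).ne', Real.log_rpow hs, one_div,
          Real.log_inv]
        ring
      have hpos : 0 < M := by
        have hg := Univ.g_circle_continuous U (r := r) (le_of_lt hr0) (mem_Iio.1 hr1)
        have hcirc := fun θ : ℝ => Univ.circle_mem (r := r) (le_of_lt hr0) (mem_Iio.1 hr1) θ
        have hc : Continuous fun θ : ℝ => ‖deriv U.f ((r:ℂ) * exp (θ * I))‖ ^ (-2 : ℝ) := by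
          have : Continuous fun θ : ℝ => ‖deriv U.f ((r:ℂ) * exp (θ * I))‖ :=
            ((U.diff.deriv isOpen_ball).continuousOn.comp_continuous (by fun_prop) hcirc).norm
          exact this.rpow_const fun θ => Or.inl (norm_ne_zero_iff.2 (U.deriv_ne _ (hcirc θ)))
        refine mul_pos (by positivity) (intervalIntegral.intervalIntegral_pos_of_pos
          (hc.intervalIntegrable _ _) (fun θ => Real.rpow_pos_of_pos
            (norm_pos_iff.2 (U.deriv_ne _ (hcirc θ))) _) (by linarith [Real.pi_pos]))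
      exact e ▸ Real.log_le_log hpos hle
    rw [EReal.coe_le_coe_iff, div_le_iff₀ hl, add_mul, div_mul_cancel₀ _ hl.ne']
    exact hMlog
  have hT : Tendsto (fun r : ℝ => ((Real.log C' / Real.log (1 / (1 - r)) + 9/8 : ℝ) : EReal))
      (𝓝[<] 1) (𝓝 ((9/8 : ℝ) : EReal)) := by
    refine (EReal.tendsto_coe.2 ?_)
    simpa using (tendsto_const_nhds.div_atTop hlog).add_const (9/8 : ℝ)
  exact (limsup_le_limsup hev).trans_eq hT.limsup_eq

end Vale.Agent.P142
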