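import Vale.Agent.P142.Weights

/-!
From coefficients to integral means and to area integrability.
-/

open Complex Metric Finset Filter Topology MeasureTheory
open scoped ComplexConjugate ENNReal

namespace Vale.Agent.P142

lemma exp_ortho (a b : ℕ) :
    ∫ θ in (-Real.pi)..Real.pi, exp (((a:ℂ) - b) * I * θ)
      = if a = b then (2 * Real.pi : ℂ) else 0 := by
  split_ifs with h
  · subst h; simp; ring
  · have hc : ((a:ℂ) - b) * I ≠ 0 := mul_ne_zero (sub_ne_zero.2 (by exact_mod_cast h)) I_ne_zero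
    rw [integral_exp_mul_complex hc]
    have e : exp (((a:ℂ) - b) * I * (Real.pi : ℝ)) =
        exp (((a:ℂ) - b) * I * ((-Real.pi : ℝ) : ℂ)) := by
      rw [Complex.exp_eq_exp_iff_exists_int]
      exact ⟨(a:ℤ) - b, by push_cast; ring⟩
    rw [e, sub_self, zero_div]

lemma partial_parseval (c : ℕ → ℂ) (N : ℕ) :
    ∫ θ in (-Real.pi)..Real.pi, ‖∑ n ∈ range N, c n * exp ((n:ℂ) * I * θ)‖ ^ 2
      = 2 * Real.pi * ∑ n ∈ range N, ‖c n‖ ^ 2 := by
  apply Complex.ofReal_injective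
  rw [← intervalIntegral.integral_ofReal]
  have e : ∀ θ : ℝ, ((‖∑ n ∈ range N, c n * exp ((n:ℂ) * I * θ)‖ ^ 2 : ℝ) : ℂ) =
      ∑ a ∈ range N, ∑ b ∈ range N, c a * conj (c b) * exp (((a:ℂ) - b) * I * θ) := by
    intro θ
    push_cast
    rw [← Complex.mul_conj', map_sum, Finset.sum_mul_sum]
    refine Finset.sum_congr rfl fun a _ => Finset.sum_congr rfl fun b _ => ?_
    rw [map_mul, ← Complex.exp_conj, map_mul, map_mul, Complex.conj_I, Complex.conj_ofReal,
      Complex.conj_natCast, sub_mul, sub_mul, Complex.exp_sub, mul_neg, neg_mul, Complex.exp_neg]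
    ring
  simp only [e]
  rw [intervalIntegral.integral_finsetSum fun a _ =>
    ((continuous_finsetSum _ fun b _ => by fun_prop).intervalIntegrable _ _)]
  have hb : ∀ a ∈ range N, (∫ θ in (-Real.pi)..Real.pi,
      ∑ b ∈ range N, c a * conj (c b) * exp (((a:ℂ) - b) * I * θ)) =
      ∑ b ∈ range N, c a * conj (c b) * (if a = b then (2 * Real.pi : ℂ) else 0) := by
    intro a _
    rw [intervalIntegral.integral_finsetSum fun b _ =>
      (show Continuous fun θ : ℝ => c a * conj (c b) * exp (((a:ℂ) - b) * I * θ) by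
        fun_prop).intervalIntegrable _ _]
    simp_rw [intervalIntegral.integral_const_mul, exp_ortho]
  rw [Finset.sum_congr rfl hb]
  push_cast
  rw [Finset.mul_sum]
  refine Finset.sum_congr rfl fun a ha => ?_
  simp only [mul_ite, mul_zero, Finset.sum_ite_eq, ha, if_true, Complex.mul_conj']
  ring

lemma mul_pow_le_one {r : ℝ} (h0 : 0 ≤ r) (h1 : r ≤ 1) (n : ℕ) :
    (n:ℝ) * (1 - r) * r ^ n ≤ 1 := by
  have h := geom_sum_mul_neg r n
  have h2 : (n:ℝ) * r ^ n ≤ ∑ i ∈ range n, r ^ i := by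
    refine le_of_eq_of_le ?_ (Finset.sum_le_sum fun i hi =>
      pow_le_pow_of_le_one h0 h1 (mem_range.1 hi).le)
    simp
  have h3 := mul_le_mul_of_nonneg_right h2 (by linarith : (0:ℝ) ≤ 1 - r)
  have h4 : (0:ℝ) ≤ r ^ n := pow_nonneg h0 n
  linarith

lemma pow_weight {r : ℝ} (h0 : 0 ≤ r) (h1 : r < 1) {n : ℕ} (hn : 1 ≤ n) :
    r ^ (2 * n) ≤ (n:ℝ) ^ (-(9/8:ℝ)) * (1 - r) ^ (-(9/8:ℝ)) := by
  have hn' : (0:ℝ) < n := by exact_mod_cast hn
  have hs : 0 < 1 - r := by linarith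
  rw [← Real.mul_rpow hn'.le hs.le, Real.rpow_neg (by positivity), ← one_div,
    le_div_iff₀ (Real.rpow_pos_of_pos (by positivity) _)]
  have hr : r ^ (2 * n) ≤ (r ^ n) ^ (9/8:ℝ) := by
    rw [show r ^ (2 * n) = (r ^ n) ^ (2:ℝ) by rw [Real.rpow_two, ← pow_mul, mul_comm]]
    rcases eq_or_lt_of_le (pow_nonneg h0 n) with h | h
    · rw [← h, Real.zero_rpow (by norm_num), Real.zero_rpow (by norm_num)]
    · exact Real.rpow_le_rpow_of_exponent_ge h (pow_le_one₀ h0 h1.le) (by norm_num)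
  calc r ^ (2 * n) * ((n:ℝ) * (1 - r)) ^ (9/8:ℝ)
      ≤ (r ^ n) ^ (9/8:ℝ) * ((n:ℝ) * (1 - r)) ^ (9/8:ℝ) :=
        mul_le_mul_of_nonneg_right hr (Real.rpow_nonneg (by positivity) _)
    _ = ((n:ℝ) * (1 - r) * r ^ n) ^ (9/8:ℝ) := by
        rw [← Real.mul_rpow (pow_nonneg h0 n) (by positivity)]; ring_nf
    _ ≤ 1 := Real.rpow_le_one (by positivity) (mul_pow_le_one h0 h1.le n) (by norm_num)

namespace Univ

variable {U : Univ}

lemma circle_mem {r : ℝ} (h0 : 0 ≤ r) (h1 : r < 1) (θ : ℝ) :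
    (r:ℂ) * exp (θ * I) ∈ ball (0:ℂ) 1 := by
  simp [abs_of_nonneg h0, h1]

lemma g_circle_continuous (U : Univ) {r : ℝ} (h0 : 0 ≤ r) (h1 : r < 1) :
    Continuous fun θ : ℝ => U.g ((r:ℂ) * exp (θ * I)) :=
  U.g_diff.continuousOn.comp_continuous (by fun_prop) fun θ => circle_mem h0 h1 θ

/-- `O((1-r)^{-9/8})` bound for the mean of `|g|²`. -/
theorem mean_bound (hA : U.AreaBound) : ∃ C : ℝ, ∀ r : ℝ, 0 ≤ r → r < 1 →
    ∫ θ in (-Real.pi)..Real.pi, ‖U.g ((r:ℂ) * exp (θ * I))‖ ^ 2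
      ≤ C * (1 - r) ^ (-(9/8:ℝ)) := by
  set K := ‖U.gc 0‖ ^ 2 + ∑' n : ℕ, ‖U.gc n‖ ^ 2 * (n:ℝ) ^ (-(9/8:ℝ)) with hK
  refine ⟨2 * Real.pi * K, fun r h0 h1 => ?_⟩
  set P : ℕ → ℝ → ℂ := fun N θ =>
    ∑ n ∈ range N, (U.gc n * (r:ℂ) ^ n) * exp ((n:ℂ) * I * θ) with hP
  have hs : 0 < 1 - r := by linarith
  have hone : 1 ≤ (1 - r) ^ (-(9/8:ℝ)) :=
    Real.one_le_rpow_of_pos_of_le_one_of_nonpos hs (by linarith) (by norm_num)
  have hsum : ∀ θ : ℝ, HasSum (fun n => (U.gc n * (r:ℂ) ^ n) * exp ((n:ℂ) * I * θ))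
      (U.g ((r:ℂ) * exp (θ * I))) := by
    intro θ
    have := Complex.hasSum_taylorSeries_on_ball (c := (0:ℂ)) (r := (1:ℝ)) U.g_diff
      (z := (r:ℂ) * exp (θ * I)) (circle_mem h0 h1 θ)
    convert this using 2 with n
    · rfl
    · simp only [gc, cf, sub_zero, smul_eq_mul, mul_pow, ← Complex.exp_nat_mul]
      ring_nf
  obtain ⟨s, hs1, hs2⟩ := exists_between h1
  have habs : Summable fun n => ‖U.gc n‖ * r ^ n := by
    have hsz : (s:ℂ) ∈ ball (0:ℂ) 1 := by simp [abs_of_nonneg (h0.trans hs1.le), hs2]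
    have := (Complex.hasSum_taylorSeries_on_ball (c := (0:ℂ)) (r := (1:ℝ)) U.g_diff hsz).summable
    obtain ⟨B, hB⟩ := this.tendsto_atTop_zero.norm.bddAbove_range
    refine Summable.of_nonneg_of_le (fun n => by positivity) (fun n => ?_)
      ((summable_geometric_of_lt_one (div_nonneg h0 (h0.trans hs1.le) : (0:ℝ) ≤ r / s)
        (by rw [div_lt_one (h0.trans_lt hs1)]; exact hs1)).mul_left B)
    have hn : ‖U.gc n‖ * s ^ n ≤ B := by
      refine le_trans (le_of_eq ?_) (hB ⟨n, rfl⟩)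
      simp [gc, cf, smul_eq_mul, abs_of_nonneg (h0.trans hs1.le)]
      ring
    have hs0 : 0 < s := h0.trans_lt hs1
    calc ‖U.gc n‖ * r ^ n = (‖U.gc n‖ * s ^ n) * (r / s) ^ n := by
          rw [div_pow]; field_simp
      _ ≤ B * (r / s) ^ n := mul_le_mul_of_nonneg_right hn (by positivity)
  have hbound : ∀ N θ, ‖P N θ‖ ≤ ∑' n, ‖U.gc n‖ * r ^ n := by
    intro N θ
    refine (norm_sum_le _ _).trans (le_of_eq_of_le ?_ (habs.sum_le_tsum (range N)
      fun n _ => by positivity))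
    refine Finset.sum_congr rfl fun n _ => ?_
    simp [norm_exp, abs_of_nonneg h0]
  have hlim : Tendsto (fun N => ∫ θ in (-Real.pi)..Real.pi, ‖P N θ‖ ^ 2) atTop
      (𝓝 (∫ θ in (-Real.pi)..Real.pi, ‖U.g ((r:ℂ) * exp (θ * I))‖ ^ 2)) := by
    refine intervalIntegral.tendsto_integral_filter_of_dominated_convergence
      (fun _ => (∑' n, ‖U.gc n‖ * r ^ n) ^ 2) (Eventually.of_forall fun N => ?_)
      (Eventually.of_forall fun N => ae_of_all _ fun θ _ => ?_) intervalIntegrable_const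
      (ae_of_all _ fun θ _ => ?_)
    · exact (by simp only [hP]; fun_prop : Continuous fun θ => ‖P N θ‖ ^ 2).aestronglyMeasurable
    · rw [Real.norm_of_nonneg (sq_nonneg _)]
      exact pow_le_pow_left₀ (norm_nonneg _) (hbound N θ) 2
    · exact ((hsum θ).tendsto_sum_nat.norm).pow 2
  refine le_of_tendsto' hlim fun N => ?_
  rw [partial_parseval, mul_assoc (2 * Real.pi) K]
  refine mul_le_mul_of_nonneg_left ?_ (by linarith [Real.pi_pos] : (0:ℝ) ≤ 2 * Real.pi)
  have hsG := summable_gc hA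
  have hterm : ∀ n ∈ range N, ‖U.gc n * (r:ℂ) ^ n‖ ^ 2 ≤
      (if n = 0 then ‖U.gc 0‖ ^ 2 * (1 - r) ^ (-(9/8:ℝ)) else 0) +
        ‖U.gc n‖ ^ 2 * (n:ℝ) ^ (-(9/8:ℝ)) * (1 - r) ^ (-(9/8:ℝ)) := by
    intro n _
    rw [norm_mul, norm_pow, Complex.norm_of_nonneg h0, mul_pow, ← pow_mul, mul_comm n 2]
    rcases Nat.eq_zero_or_pos n with rfl | hn
    · simpa [Real.zero_rpow] using mul_le_mul_of_nonneg_left hone (sq_nonneg ‖U.gc 0‖)
    · rw [if_neg (by omega), zero_add, mul_assoc]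
      exact mul_le_mul_of_nonneg_left (pow_weight h0 h1 hn) (sq_nonneg _)
  refine (Finset.sum_le_sum hterm).trans ?_
  rw [Finset.sum_add_distrib, ← Finset.sum_mul, hK, add_mul]
  refine add_le_add ?_ (mul_le_mul_of_nonneg_right
    (hsG.sum_le_tsum _ fun n _ => mul_nonneg (sq_nonneg _)
      (Real.rpow_nonneg (Nat.cast_nonneg _) _)) (Real.rpow_nonneg hs.le _))
  rcases Nat.eq_zero_or_pos N with rfl | hN
  · simp; positivity
  · simp [Finset.sum_ite_eq', hN]

/-- Area integrability of `|g|^p` for `0 ≤ p < 16/9`. -/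
theorem area_bound (hA : U.AreaBound) {p : ℝ} (hp0 : 0 ≤ p) (hp : p < 16 / 9) :
    ∫⁻ z in ball (0:ℂ) 1, ENNReal.ofReal (‖U.g z‖ ^ p) < ⊤ := by
  obtain ⟨C, hC⟩ := mean_bound hA
  obtain ⟨δ, hδ0, hδ1⟩ : ∃ δ : ℝ, 1/8 < δ ∧ δ * p < 2 - p := by
    rcases eq_or_lt_of_le hp0 with rfl | hp'
    · exact ⟨1, by norm_num, by norm_num⟩
    · obtain ⟨δ, h1, h2⟩ := exists_between (show (1:ℝ)/8 < (2 - p) / p by
        rw [lt_div_iff₀ hp']; linarith)
      exact ⟨δ, h1, by rwa [lt_div_iff₀ hp'] at h2⟩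
  set e : ℝ := δ * p / (2 - p) with he
  have h2p : 0 < 2 - p := by linarith
  have he1 : e < 1 := by rw [he, div_lt_one h2p]; exact hδ1
  have young : ∀ x : ℝ, 0 ≤ x → ∀ ρ : ℝ, 0 < ρ → x ^ p ≤ x ^ 2 * ρ ^ δ + ρ ^ (-e) := by
    intro x hx ρ hρ
    have h := Real.geom_mean_le_arith_mean2_weighted (w₁ := p / 2) (w₂ := 1 - p / 2)
      (p₁ := x ^ 2 * ρ ^ δ) (p₂ := ρ ^ (-e)) (by positivity) (by linarith)
      (mul_nonneg (sq_nonneg _) (Real.rpow_nonneg hρ.le _)) (Real.rpow_nonneg hρ.le _) (by ring)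
    have eq : (x ^ 2 * ρ ^ δ) ^ (p / 2) * (ρ ^ (-e)) ^ (1 - p / 2) = x ^ p := by
      rw [Real.mul_rpow (sq_nonneg _) (Real.rpow_nonneg hρ.le _), ← Real.rpow_mul hρ.le,
        ← Real.rpow_mul hρ.le, mul_assoc, ← Real.rpow_add hρ, ← Real.rpow_natCast x 2,
        ← Real.rpow_mul hx, show δ * (p / 2) + -e * (1 - p / 2) = 0 by rw [he]; field_simp; ring]
      simp [mul_div_cancel₀]
    rw [eq] at h
    refine h.trans (add_le_add (mul_le_of_le_one_left (mul_nonneg (sq_nonneg _)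
      (Real.rpow_nonneg hρ.le _)) (by linarith)) (mul_le_of_le_one_left
      (Real.rpow_nonneg hρ.le _) (by linarith)))
  set F : ℂ → ℝ≥0∞ := (ball (0:ℂ) 1).indicator fun z => ENNReal.ofReal (‖U.g z‖ ^ p) with hF
  have hFm : Measurable F := by
    have h1 : ContinuousOn (fun z => ENNReal.ofReal (‖U.g z‖ ^ p)) (ball (0:ℂ) 1) :=
      ENNReal.continuous_ofReal.comp_continuousOn
        (U.g_diff.continuousOn.norm.rpow_const fun _ _ => Or.inr hp0)
    classical
    rw [hF, ← Set.piecewise_eq_indicator]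
    exact h1.measurable_piecewise continuousOn_const measurableSet_ball
  rw [← lintegral_indicator measurableSet_ball, ← hF,
    ← Complex.lintegral_comp_polarCoord_symm]
  set H : ℝ × ℝ → ℝ≥0∞ := fun q => ENNReal.ofReal q.1 • F (Complex.polarCoord.symm q) with hH
  have hHm : Measurable H := by
    have hc : Measurable fun q : ℝ × ℝ => Complex.polarCoord.symm q := by
      simp only [Complex.polarCoord_symm_apply]; fun_prop
    exact (ENNReal.measurable_ofReal.comp measurable_fst).mul (hFm.comp hc)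
  rw [polarCoord_target, Measure.volume_eq_prod,
    setLIntegral_prod _ hHm.aemeasurable]
  set D := |C| with hD
  have hradial : ∀ x ∈ Set.Ioi (0:ℝ), ∫⁻ θ in Set.Ioo (-Real.pi) Real.pi, H (x, θ) ≤
      (Set.Ioo (0:ℝ) 1).indicator (fun x => ENNReal.ofReal
        (D * (1 - x) ^ (δ - 9/8) + 2 * Real.pi * (1 - x) ^ (-e))) x := by
    intro x hx
    have hx0 : 0 < x := hx
    have hsymm : ∀ θ, Complex.polarCoord.symm (x, θ) = (x:ℂ) * exp (θ * I) := fun θ => by
      rw [Complex.polarCoord_symm_apply, exp_mul_I]; push_cast; ring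
    by_cases hx1 : x < 1
    swap
    · rw [Set.indicator_of_notMem (fun h => hx1 h.2)]
      refine le_of_eq (setLIntegral_eq_zero measurableSet_Ioo fun θ _ => ?_)
      have : (x:ℂ) * exp (θ * I) ∉ ball (0:ℂ) 1 := by
        simp [abs_of_pos hx0, not_lt.1 hx1]
      simp only [hH, hsymm, hF]
      rw [Set.indicator_of_notMem this, smul_zero]
      rfl
    rw [Set.indicator_of_mem (show x ∈ Set.Ioo (0:ℝ) 1 from ⟨hx0, hx1⟩)]
    have hρ : 0 < 1 - x := by linarith
    set G : ℝ → ℝ := fun θ =>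
      (1 - x) ^ δ * ‖U.g ((x:ℂ) * exp (θ * I))‖ ^ 2 + (1 - x) ^ (-e) with hG
    have hgc := g_circle_continuous U hx0.le hx1
    have hGc : Continuous G := by simp only [hG]; fun_prop
    have hle : ∀ θ, H (x, θ) ≤ ENNReal.ofReal (G θ) := by
      intro θ
      simp only [hH, hsymm, hF, Set.indicator_of_mem (circle_mem hx0.le hx1 θ), smul_eq_mul]
      rw [← ENNReal.ofReal_mul hx0.le]
      refine ENNReal.ofReal_le_ofReal ((mul_le_of_le_one_left (Real.rpow_nonneg (norm_nonneg _) _)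
        hx1.le).trans ((young _ (norm_nonneg _) _ hρ).trans_eq ?_))
      simp only [hG]; ring
    refine (setLIntegral_mono (by fun_prop) fun θ _ => hle θ).trans ?_
    have hG0 : ∀ θ, 0 ≤ G θ := fun θ => add_nonneg
      (mul_nonneg (Real.rpow_nonneg hρ.le _) (sq_nonneg _)) (Real.rpow_nonneg hρ.le _)
    rw [← ofReal_integral_eq_lintegral_ofReal
      ((hGc.integrableOn_Ioc (μ := volume)).mono_set Set.Ioo_subset_Ioc_self)
      (ae_of_all _ hG0), ← integral_Ioc_eq_integral_Ioo,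
      ← intervalIntegral.integral_of_le (by linarith [Real.pi_pos])]
    refine ENNReal.ofReal_le_ofReal ?_
    simp only [hG]
    rw [intervalIntegral.integral_add (Continuous.intervalIntegrable (by fun_prop) _ _)
      intervalIntegrable_const, intervalIntegral.integral_const_mul, intervalIntegral.integral_const]
    refine add_le_add ?_ (le_of_eq (by rw [smul_eq_mul]; ring))
    have h1 := mul_le_mul_of_nonneg_left
      ((hC x hx0.le hx1).trans (mul_le_mul_of_nonneg_right (le_abs_self C)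
        (Real.rpow_nonneg hρ.le _))) (Real.rpow_nonneg hρ.le δ)
    refine h1.trans_eq ?_
    rw [show δ - 9/8 = δ + -(9/8 : ℝ) by ring, Real.rpow_add hρ]; ring
  refine (setLIntegral_mono' measurableSet_Ioi hradial).trans_lt ?_
  refine (setLIntegral_le_lintegral _ _).trans_lt ?_
  rw [lintegral_indicator measurableSet_Ioo]
  have hpow : ∀ c : ℝ, -1 < c → IntegrableOn (fun x : ℝ => (1 - x) ^ c) (Set.Ioo 0 1) := by
    intro c hc
    have h := ((intervalIntegral.intervalIntegrable_rpow' (a := 0) (b := 1) hc).comp_sub_left 1).symm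
    simp only [sub_zero, sub_self] at h
    exact ((intervalIntegrable_iff_integrableOn_Ioc_of_le zero_le_one).1 h).mono_set
      Set.Ioo_subset_Ioc_self
  exact ((hpow _ (by linarith)).const_mul D |>.add
    ((hpow _ (by linarith)).const_mul (2 * Real.pi))).lintegral_lt_top

end Univ

end Vale.Agent.P142
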