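import Vale.Agent.P142.Bound
import Vale.Agent.P142.Cert

/-!
Asymptotic comparison of the two sides of the weighted inequality at the exponent `33/8`,
and the resulting bound `∑ |g_n|² n^(-9/8) < ∞`.
-/

open Finset Filter Topology

namespace Vale.Agent.P142

/-- The exponent of the weights. -/
noncomputable def κ₀ : ℝ := 33 / 8

/-- The kernel `jk/(j^κ+k^κ)`. -/
noncomputable def kern (j k : ℕ) : ℝ := (j:ℝ) * k / ((j:ℝ) ^ κ₀ + (k:ℝ) ^ κ₀)

/-- The limiting profile. -/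
noncomputable def prof (t : ℝ) : ℝ := t * (1 - t) / (t ^ κ₀ + (1 - t) ^ κ₀)

lemma kern_nonneg (j k : ℕ) : 0 ≤ kern j k :=
  div_nonneg (by positivity) (add_nonneg (Real.rpow_nonneg (Nat.cast_nonneg _) _)
    (Real.rpow_nonneg (Nat.cast_nonneg _) _))

lemma kern_comm (j k : ℕ) : kern j k = kern k j := by
  simp only [kern, mul_comm (j:ℝ), add_comm ((j:ℝ) ^ κ₀)]

lemma kern_eq {j m : ℕ} (hjm : j ≤ m) (hm : 0 < m) :
    kern j (m - j) = ((m:ℝ) ^ 2 / (m:ℝ) ^ κ₀) * prof ((j:ℝ) / m) := by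
  have hm' : (0:ℝ) < m := by exact_mod_cast hm
  have h1 : (1 - (j:ℝ) / m) = ((m - j : ℕ) : ℝ) / m := by
    rw [Nat.cast_sub hjm]; field_simp
  have hp : (0:ℝ) < (m:ℝ) ^ κ₀ := Real.rpow_pos_of_pos hm' _
  simp only [prof, kern, h1, Real.div_rpow (Nat.cast_nonneg j) hm'.le,
    Real.div_rpow (Nat.cast_nonneg (m - j)) hm'.le]
  rw [← add_div]
  field_simp

lemma den_pos {t : ℝ} (h0 : 0 ≤ t) (h1 : t < 1) : 0 < t ^ κ₀ + (1 - t) ^ κ₀ :=
  add_pos_of_nonneg_of_pos (Real.rpow_nonneg h0 _) (Real.rpow_pos_of_pos (by linarith) _)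

lemma prof_mono {t s : ℝ} (h0 : 0 ≤ t) (hts : t ≤ s) (hs : s ≤ 1 / 2) : prof t ≤ prof s := by
  rcases eq_or_lt_of_le (hts.trans hs) with h | h
  · have : t = s := le_antisymm hts (hs.trans h.symm.le)
    rw [this]
  have hc : ∀ {x y θ : ℝ}, 0 ≤ x → 0 ≤ y → 0 ≤ θ → θ ≤ 1 →
      (θ * x + (1 - θ) * y) ^ κ₀ ≤ θ * x ^ κ₀ + (1 - θ) * y ^ κ₀ := fun {x y θ} hx hy hθ hθ1 => by
    simpa using (convexOn_rpow (p := κ₀) (by norm_num [κ₀])).2 (Set.mem_Ici.2 hx)
      (Set.mem_Ici.2 hy) hθ (by linarith : (0:ℝ) ≤ 1 - θ) (by ring)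
  set θ := (1 - t - s) / (1 - 2 * t) with hθ
  have hd : 0 < 1 - 2 * t := by linarith
  have hθ0 : 0 ≤ θ := div_nonneg (by linarith) hd.le
  have hθ1 : θ ≤ 1 := by rw [hθ, div_le_one hd]; linarith
  have e1 : θ * t + (1 - θ) * (1 - t) = s := by
    have := div_mul_cancel₀ (1 - t - s) hd.ne'
    rw [← hθ] at this
    linarith
  have e2 : θ * (1 - t) + (1 - θ) * t = 1 - s := by linarith
  have a1 := hc h0 (by linarith : (0:ℝ) ≤ 1 - t) hθ0 hθ1
  have a2 := hc (by linarith : (0:ℝ) ≤ 1 - t) h0 hθ0 hθ1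
  rw [e1] at a1
  rw [e2] at a2
  unfold prof
  refine div_le_div₀ (mul_nonneg (h0.trans hts) (by linarith)) ?_
    (den_pos (h0.trans hts) (by linarith)) (by linarith)
  nlinarith [mul_nonneg (sub_nonneg.2 hts) (by linarith : (0:ℝ) ≤ 1 - t - s)]

lemma prof_low {i : ℕ} (hi : i < 2000) : (low i : ℝ) / 1000000 ≤ prof ((i:ℝ) / 4000) := by
  have hu : ∀ k : ℕ, k ≤ 4000 → ((k:ℝ) / 4000) ^ κ₀ ≤
      (k:ℝ) ^ 4 * (upper k) / (4000 ^ 4 * 1000000) := by
    intro k hk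
    have hx : (0:ℝ) ≤ (k:ℝ) / 4000 := by positivity
    have key : ((k:ℝ) / 4000) * 1000000 ^ 8 ≤ (upper k : ℝ) ^ 8 := by
      have h := le_root8 21 0 1000000 ((k * 1000000 ^ 8 + 3999) / 4000) (by omega)
      have h' : k * 1000000 ^ 8 ≤ 4000 * upper k ^ 8 := by
        have h2 := Nat.mul_le_mul_left 4000 h
        have := Nat.div_add_mod (k * 1000000 ^ 8 + 3999) 4000
        have := Nat.mod_lt (k * 1000000 ^ 8 + 3999) (by norm_num : 4000 > 0)
        unfold upper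
        omega
      have h3 : (k:ℝ) * 1000000 ^ 8 ≤ 4000 * (upper k : ℝ) ^ 8 := by exact_mod_cast h'
      linarith
    have h8 : ((k:ℝ) / 4000) ^ ((1:ℝ) / 8) ≤ (upper k : ℝ) / 1000000 := by
      refine le_of_pow_le_pow_left₀ (by norm_num : 8 ≠ 0) (by positivity) ?_
      rw [← Real.rpow_natCast _ 8, ← Real.rpow_mul hx, div_pow]
      norm_num
      linarith
    rcases eq_or_lt_of_le hx with h | h
    · rw [← h, Real.zero_rpow (by norm_num [κ₀])]; positivity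
    · calc ((k:ℝ) / 4000) ^ κ₀ = ((k:ℝ) / 4000) ^ (4:ℕ) * ((k:ℝ) / 4000) ^ ((1:ℝ) / 8) := by
            rw [← Real.rpow_natCast _ 4, ← Real.rpow_add h]; norm_num [κ₀]
        _ ≤ ((k:ℝ) / 4000) ^ (4:ℕ) * ((upper k : ℝ) / 1000000) :=
            mul_le_mul_of_nonneg_left h8 (by positivity)
        _ = _ := by ring
  set D := i ^ 4 * upper i + (4000 - i) ^ 4 * upper (4000 - i) with hD
  have hlow : (low i : ℝ) ≤
      ((1000000 * (i * (4000 - i) * 4000 ^ 2 * 1000000) : ℕ) : ℝ) / (D : ℝ) := Nat.cast_div_le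
  have ht : 1 - (i:ℝ) / 4000 = ((4000 - i : ℕ) : ℝ) / 4000 := by
    rw [Nat.cast_sub (by omega)]; push_cast; ring
  have hden := den_pos (t := (i:ℝ) / 4000) (by positivity)
    (by rw [div_lt_one (by norm_num)]; exact_mod_cast (by omega : i < 4000))
  have hle := add_le_add (hu i (by omega)) (hu (4000 - i) (by omega))
  unfold prof
  rw [ht] at hden ⊢
  have hDr : (i:ℝ) ^ 4 * upper i / (4000 ^ 4 * 1000000) + ((4000 - i : ℕ) : ℝ) ^ 4 *
      upper (4000 - i) / (4000 ^ 4 * 1000000) = (D : ℝ) / (4000 ^ 4 * 1000000) := by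
    rw [hD, ← add_div]; push_cast; rfl
  rw [hDr] at hle
  have hD0 : (0:ℝ) < D := by
    have := hden.trans_le hle
    exact (div_pos_iff_of_pos_right (by norm_num)).1 this
  refine le_trans ?_ (div_le_div_of_nonneg_left (by positivity) hden hle)
  refine (div_le_div_of_nonneg_right hlow (by norm_num)).trans_eq ?_
  push_cast
  field_simp
  norm_num

lemma kern_sum_lower {m : ℕ} (hm : 4000 ≤ m) :
    ((m:ℝ) ^ 2 / (m:ℝ) ^ κ₀) * (2 * ((m:ℝ) / 4000 - 1) * ((lowSum 2000 : ℝ) / 1000000)) ≤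
      ∑ j ∈ range (m + 1), kern j (m - j) := by
  obtain ⟨half, hhalf⟩ : ∃ h : ℕ, h = 2000 := ⟨_, rfl⟩
  rw [← hhalf]
  set q := m / 4000 with hq
  have hmq := Nat.div_add_mod m 4000
  have hmr := Nat.mod_lt m (by norm_num : 4000 > 0)
  set M := (m:ℝ) ^ 2 / (m:ℝ) ^ κ₀ with hM
  have hM0 : 0 ≤ M := div_nonneg (sq_nonneg _) (Real.rpow_nonneg (Nat.cast_nonneg _) _)
  set lo := (range (m + 1)).filter (fun j => 2 * j < m) with hlo
  have h2 : 2 * ∑ j ∈ lo, kern j (m - j) ≤ ∑ j ∈ range (m + 1), kern j (m - j) := by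
    have hd : Disjoint lo ((range (m + 1)).filter (fun j => m < 2 * j)) :=
      Finset.disjoint_filter.2 fun j _ h1 h2 => by omega
    have e : ∑ j ∈ (range (m + 1)).filter (fun j => m < 2 * j), kern j (m - j) =
        ∑ j ∈ lo, kern j (m - j) := by
      refine Finset.sum_nbij' (fun j => m - j) (fun j => m - j) ?_ ?_ ?_ ?_ ?_
      · intro j hj; simp only [hlo, mem_filter, Finset.mem_range] at hj ⊢; omega
      · intro j hj; simp only [hlo, mem_filter, Finset.mem_range] at hj ⊢; omega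
      · intro j hj; simp only [mem_filter, Finset.mem_range] at hj; omega
      · intro j hj; simp only [hlo, mem_filter, Finset.mem_range] at hj; omega
      · intro j hj
        simp only [mem_filter, Finset.mem_range] at hj
        rw [kern_comm, show m - (m - j) = j by omega]
    rw [two_mul]
    nth_rewrite 2 [← e]
    rw [← Finset.sum_union hd]
    exact Finset.sum_le_sum_of_subset_of_nonneg
      (Finset.union_subset (filter_subset _ _) (filter_subset _ _))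
      fun j _ _ => kern_nonneg _ _
  set T := range half ×ˢ range q with hT
  set φ : ℕ × ℕ → ℕ := fun p => (p.1 * m + 3999) / 4000 + p.2 with hφ
  have hmaps : ∀ p ∈ T, p.1 * m ≤ 4000 * φ p ∧ 4000 * φ p < (p.1 + 1) * m := by
    intro p hp
    simp only [hT, mem_product, Finset.mem_range] at hp
    have := Nat.div_add_mod (p.1 * m + 3999) 4000
    have := Nat.mod_lt (p.1 * m + 3999) (by norm_num : 4000 > 0)
    simp only [hφ, Nat.add_mul, one_mul]
    omega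
  have hinj : Set.InjOn φ T := by
    intro p hp r hr e
    obtain ⟨a1, a2⟩ := hmaps p hp
    obtain ⟨b1, b2⟩ := hmaps r hr
    rw [e] at a1 a2
    have h1 : p.1 * m < (r.1 + 1) * m := a1.trans_lt b2
    have h2 : r.1 * m < (p.1 + 1) * m := b1.trans_lt a2
    have : p.1 = r.1 := by
      have := Nat.lt_of_mul_lt_mul_right h1
      have := Nat.lt_of_mul_lt_mul_right h2
      omega
    refine Prod.ext this ?_
    simp only [hφ, this] at e
    omega
  have hsub : T.image φ ⊆ lo := by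
    intro j hj
    obtain ⟨p, hp, rfl⟩ := mem_image.1 hj
    obtain ⟨a1, a2⟩ := hmaps p hp
    simp only [hT, mem_product, Finset.mem_range] at hp
    have : (p.1 + 1) * m ≤ half * m := Nat.mul_le_mul_right m (by omega)
    rw [hhalf] at this
    simp only [hlo, mem_filter, Finset.mem_range]
    omega
  have h3 : ∑ p ∈ T, M * ((low p.1 : ℝ) / 1000000) ≤ ∑ j ∈ lo, kern j (m - j) := by
    refine le_trans ?_ (Finset.sum_le_sum_of_subset_of_nonneg hsub fun j _ _ => kern_nonneg _ _)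
    rw [Finset.sum_image hinj]
    refine Finset.sum_le_sum fun p hp => ?_
    obtain ⟨a1, a2⟩ := hmaps p hp
    simp only [hT, mem_product, Finset.mem_range] at hp
    have hm0 : (0:ℝ) < m := by exact_mod_cast (by omega : 0 < m)
    have hlom : 2 * φ p ≤ m := by
      have : (p.1 + 1) * m ≤ half * m := Nat.mul_le_mul_right m (by omega)
      rw [hhalf] at this
      omega
    rw [kern_eq (by omega) (by omega)]
    refine mul_le_mul_of_nonneg_left ((prof_low (hhalf ▸ hp.1)).trans (prof_mono (by positivity) ?_ ?_)) hM0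
    · rw [div_le_div_iff₀ (by norm_num) hm0]
      exact_mod_cast (by rw [mul_comm (φ p)]; exact a1 : p.1 * m ≤ φ p * 4000)
    · rw [div_le_iff₀ hm0]
      have : (2:ℝ) * (φ p : ℝ) ≤ m := by exact_mod_cast hlom
      linarith
  have hls : ∀ n, ∑ i ∈ range n, low i = lowSum n := fun n => by
    induction n with
    | zero => rfl
    | succ n ih => rw [Finset.sum_range_succ, ih]; rfl
  have e : ∑ p ∈ T, M * ((low p.1 : ℝ) / 1000000) =
      M * ((q:ℝ) * ((lowSum half : ℝ) / 1000000)) := by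
    rw [← hls half, hT, Finset.sum_product]
    simp only [Finset.sum_const, Finset.card_range, nsmul_eq_mul]
    rw [← Finset.mul_sum, Nat.cast_sum, ← Finset.mul_sum, ← Finset.sum_div]
    ring
  have hqr : (m:ℝ) / 4000 - 1 ≤ q := by
    rw [div_sub_one (by norm_num), div_le_iff₀ (by norm_num)]
    have : m ≤ q * 4000 + 4000 := by omega
    have : (m:ℝ) ≤ q * 4000 + 4000 := by exact_mod_cast this
    linarith
  have hS : (0:ℝ) ≤ (lowSum half : ℝ) / 1000000 := div_nonneg (Nat.cast_nonneg _) (by norm_num)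
  have h4 := mul_le_mul_of_nonneg_left (mul_le_mul_of_nonneg_right hqr hS) hM0
  rw [e] at h3
  linarith

lemma rpow_step {a x : ℝ} (ha : 0 < a) (hx : 1 < x) :
    a * x ^ (-(a + 1)) ≤ (x - 1) ^ (-a) - x ^ (-a) := by
  have hx0 : 0 < x := by linarith
  have h1 : 0 < 1 - 1 / x := by
    rw [sub_pos, div_lt_one hx0]; exact hx
  have h2 : 1 + a / x ≤ (1 - 1 / x) ^ (-a) := by
    rw [Real.rpow_def_of_pos h1]
    refine le_trans (by linarith : 1 + a / x ≤ a / x + 1)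
      ((Real.add_one_le_exp _).trans (Real.exp_le_exp.2 ?_))
    have h3 := Real.log_le_sub_one_of_pos h1
    have h4 : Real.log (1 - 1 / x) * a ≤ (1 - 1 / x - 1) * a := mul_le_mul_of_nonneg_right h3 ha.le
    have h5 : (1 - 1 / x - 1) * a = -(a / x) := by ring
    linarith
  have e : (x - 1) ^ (-a) = x ^ (-a) * (1 - 1 / x) ^ (-a) := by
    rw [← Real.mul_rpow hx0.le h1.le]; congr 1; field_simp
  have e2 : x ^ (-(a + 1)) = x ^ (-a) / x := by
    rw [show -(a + 1) = -a - 1 by ring, Real.rpow_sub_one hx0.ne']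
  have := mul_le_mul_of_nonneg_left h2 (Real.rpow_nonneg hx0.le (-a))
  rw [e, e2]
  have e3 : a * (x ^ (-a) / x) = x ^ (-a) * (1 + a / x) - x ^ (-a) := by ring
  linarith

lemma tail_sum {a c : ℝ} (ha : 0 < a) {b : ℕ} (hb : c + 1 < b) (N : ℕ) :
    ∑ j ∈ Icc b N, ((j:ℝ) - c) ^ (-(a + 1)) ≤ ((b:ℝ) - c - 1) ^ (-a) / a := by
  have h0 : 0 ≤ ((b:ℝ) - c - 1) ^ (-a) / a :=
    div_nonneg (Real.rpow_nonneg (by linarith) _) ha.le
  rcases Nat.lt_or_ge N b with h | h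
  · rw [Finset.Icc_eq_empty (by omega), Finset.sum_empty]; exact h0
  have : a * ∑ j ∈ Icc b N, ((j:ℝ) - c) ^ (-(a + 1)) ≤
      ((b:ℝ) - c - 1) ^ (-a) - ((N:ℝ) - c) ^ (-a) := by
    induction N, h using Nat.le_induction with
    | base => simpa using rpow_step ha (by linarith : 1 < (b:ℝ) - c)
    | succ N hN ih =>
      rw [Finset.sum_Icc_succ_top (by omega), mul_add]
      have hb' : (b:ℝ) ≤ N := by exact_mod_cast hN
      have := rpow_step ha (x := ((N + 1 : ℕ) : ℝ) - c) (by push_cast; linarith)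
      have e : ((N + 1 : ℕ) : ℝ) - c - 1 = (N:ℝ) - c := by push_cast; ring
      rw [e] at this
      linarith
  have hN : (b:ℝ) ≤ N := by exact_mod_cast h
  have := Real.rpow_nonneg (by linarith : (0:ℝ) ≤ (N:ℝ) - c) (-a)
  rw [le_div_iff₀ ha, mul_comm]
  linarith

/-- The right-hand coefficient. -/
noncomputable def rhsCoef (N i : ℕ) : ℝ :=
  ∑ j ∈ Icc (max 1 i) N, (j:ℝ) / (j:ℝ) ^ κ₀ * ((j + 1 - i : ℕ) : ℝ)

lemma rhsCoef_const (N i : ℕ) : rhsCoef N i ≤ 2 * ∑' j : ℕ, 1 / (j:ℝ) ^ (κ₀ - 2) := by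
  have hs : Summable fun j : ℕ => 1 / (j:ℝ) ^ (κ₀ - 2) :=
    Real.summable_one_div_nat_rpow.2 (by norm_num [κ₀])
  rw [rhsCoef, ← tsum_mul_left]
  refine (Finset.sum_le_sum fun j hj => ?_).trans ((hs.mul_left 2).sum_le_tsum _ fun j _ =>
    mul_nonneg (by norm_num) (div_nonneg zero_le_one (Real.rpow_nonneg (Nat.cast_nonneg _) _)))
  have hj1 : 1 ≤ j := (le_max_left 1 i).trans (mem_Icc.1 hj).1
  have hj' : (0:ℝ) < j := by exact_mod_cast hj1
  have h2 : ((j + 1 - i : ℕ) : ℝ) ≤ 2 * j := by exact_mod_cast (by omega : j + 1 - i ≤ 2 * j)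
  calc _ ≤ (j:ℝ) / (j:ℝ) ^ κ₀ * (2 * j) := mul_le_mul_of_nonneg_left h2
        (div_nonneg hj'.le (Real.rpow_nonneg hj'.le _))
    _ = _ := by
        rw [Real.rpow_sub hj', show (2:ℝ) = ((2:ℕ):ℝ) by norm_num, Real.rpow_natCast]
        field_simp

lemma rhsCoef_tail {i : ℕ} (hi : 3 ≤ i) (N : ℕ) :
    rhsCoef N i ≤ 64 / 153 * ((i:ℝ) - 2) ^ (-(9/8 : ℝ)) := by
  rw [rhsCoef, max_eq_right (by omega)]
  have e : ∑ j ∈ Icc i N, (j:ℝ) / (j:ℝ) ^ κ₀ * ((j + 1 - i : ℕ) : ℝ) =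
      ∑ b ∈ Icc i N, ∑ j ∈ Icc b N, ((j:ℝ) - 0) ^ (-((17/8:ℝ) + 1)) := by
    rw [Finset.sum_comm' (t' := Icc i N) (s' := fun j => Icc i j)
      (by intro b j; simp only [Finset.mem_Icc]; omega)]
    refine Finset.sum_congr rfl fun j hj => ?_
    have hj' : (0:ℝ) < j := by exact_mod_cast (by have := (mem_Icc.1 hj).1; omega : 0 < j)
    have e1 : ((j:ℝ) - 0) ^ (-((17/8:ℝ) + 1)) = (j:ℝ) / (j:ℝ) ^ κ₀ := by
      rw [sub_zero, show -((17/8:ℝ) + 1) = 1 - κ₀ by norm_num [κ₀], Real.rpow_sub hj',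
        Real.rpow_one]
    rw [e1, Finset.sum_const, Nat.card_Icc, nsmul_eq_mul, mul_comm]
  rw [e]
  refine (Finset.sum_le_sum fun b hb => tail_sum (by norm_num) (b := b) (c := 0)
    (by have : (3:ℝ) ≤ b := by exact_mod_cast hi.trans (mem_Icc.1 hb).1
        linarith) N).trans ?_
  rw [← Finset.sum_div]
  have h := tail_sum (a := 9/8) (c := 1) (by norm_num) (b := i)
    (by have : (3:ℝ) ≤ i := by exact_mod_cast hi
        linarith) N
  have e2 : ∀ b : ℕ, ((b:ℝ) - 0 - 1) ^ (-(17/8 : ℝ)) = ((b:ℝ) - 1) ^ (-((9/8:ℝ) + 1)) :=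
    fun b => by norm_num
  simp only [e2]
  rw [show (i:ℝ) - 2 = (i:ℝ) - 1 - 1 by ring]
  linarith

namespace Univ

variable {U : Univ}

theorem weighted_diag (hA : U.AreaBound) (N : ℕ) :
    ∑ n ∈ Icc 3 N, ‖U.gc n‖ ^ 2 * ∑ j ∈ range n, kern j (n - 1 - j) ≤
      2 * ∑ i ∈ range (N + 1), ‖U.gc i‖ ^ 2 * rhsCoef N i := by
  refine le_trans ?_ ((weighted hA κ₀ N).trans_eq ?_)
  · have hterm : ∀ n ∈ Icc 3 N, ∑ j ∈ range n, kern j (n - 1 - j) =
        ∑ j ∈ Icc 1 (n - 2), kern j (n - 1 - j) := by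
      intro n hn
      rw [mem_Icc] at hn
      refine (Finset.sum_subset (by intro j; simp only [Finset.mem_Icc, Finset.mem_range]; omega)
        fun j hj hj' => ?_).symm
      simp only [Finset.mem_Icc, Finset.mem_range] at hj hj'
      rcases (by omega : j = 0 ∨ j = n - 1) with rfl | rfl <;> simp [kern]
    rw [Finset.sum_congr rfl fun n hn => by rw [hterm n hn, Finset.mul_sum]]
    rw [Finset.sum_sigma' (Icc 3 N) (fun n => Icc 1 (n - 2)), ← Finset.sum_product']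
    refine le_trans (le_of_eq_of_le ?_ (le_refl
      (∑ q ∈ ((Icc 3 N).sigma fun n => Icc 1 (n - 2)).image
          (fun p : (_ : ℕ) × ℕ => (p.2, p.1 - 1 - p.2)),
        (q.1:ℝ) * q.2 / ((q.1:ℝ) ^ κ₀ + (q.2:ℝ) ^ κ₀) * ‖U.gc (q.1 + q.2 + 1)‖ ^ 2)))
      (Finset.sum_le_sum_of_subset_of_nonneg ?_ fun q _ _ =>
        mul_nonneg (kern_nonneg q.1 q.2) (sq_nonneg _))
    · rw [Finset.sum_image]
      · refine Finset.sum_congr rfl fun p hp => ?_
        simp only [mem_sigma, Finset.mem_Icc] at hp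
        rw [show p.2 + (p.1 - 1 - p.2) + 1 = p.1 by omega]
        simp [kern, mul_comm]
      · rintro ⟨n, j⟩ hp ⟨n', j'⟩ hp' e
        simp only [coe_sigma, Set.mem_sigma_iff, coe_Icc, Set.mem_Icc] at hp hp'
        simp only [Prod.mk.injEq] at e
        obtain ⟨rfl, e⟩ := e
        obtain rfl : n = n' := by omega
        rfl
    · intro q hq
      obtain ⟨p, hp, rfl⟩ := mem_image.1 hq
      simp only [mem_sigma, mem_product, Finset.mem_Icc] at hp ⊢
      omega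
  · congr 1
    simp only [rowMass, Finset.mul_sum, rhsCoef]
    rw [Finset.sum_comm' (t' := range (N + 1)) (s' := fun i => Icc (max 1 i) N)
      (by intro j i; simp only [Finset.mem_Icc, Finset.mem_range]; omega)]
    exact Finset.sum_congr rfl fun i _ => Finset.sum_congr rfl fun j _ => by ring

theorem eventually_gap :
    ∃ δ > (0:ℝ), ∃ n₀ : ℕ, 3 ≤ n₀ ∧ ∀ n ≥ n₀, ∀ N,
      δ * (n:ℝ) ^ (-(9/8:ℝ)) + 2 * rhsCoef N n ≤ ∑ j ∈ range n, kern j (n - 1 - j) := by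
  set S := (lowSum 2000 : ℝ) / 1000000 with hS
  have hgap : (128:ℝ) / 153 < 2 * S / 4000 := by
    have h : (128:ℝ) * 4000 * 1000000 < (lowSum 2000 : ℝ) * 2 * 153 := by exact_mod_cast cert
    rw [hS, div_lt_div_iff₀ (by norm_num) (by norm_num), ← mul_lt_mul_iff_of_pos_right
      (by norm_num : (0:ℝ) < 1000000)]
    field_simp
    linarith
  set δ := (2 * S / 4000 - 128 / 153) / 2 with hδ
  have l1 : Tendsto (fun n : ℕ => 2 * S * (1 / 4000 - 1 / ((n:ℝ) - 1))) atTop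
      (𝓝 (2 * S / 4000)) := by
    have h := (((tendsto_atTop_add_const_right _ (-1:ℝ) tendsto_natCast_atTop_atTop).inv_tendsto_atTop
      ).const_sub (1/4000 : ℝ)).const_mul (2 * S)
    convert h using 2 with n
    · simp [sub_eq_add_neg, one_div]
    · ring
  have l2 : Tendsto (fun n : ℕ => δ + 128 / 153 * (((n:ℝ) / ((n:ℝ) - 2)) ^ (9/8:ℝ))) atTop
      (𝓝 (δ + 128 / 153)) := by
    have h1 : Tendsto (fun n : ℕ => (n:ℝ) / ((n:ℝ) - 2)) atTop (𝓝 1) := by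
      have := tendsto_natCast_div_add_atTop (𝕜 := ℝ) (-2)
      simpa [sub_eq_add_neg] using this
    have h2 : Tendsto (fun n : ℕ => ((n:ℝ) / ((n:ℝ) - 2)) ^ (9/8:ℝ)) atTop (𝓝 1) := by
      simpa using h1.rpow_const (Or.inr (by norm_num : (0:ℝ) ≤ 9/8))
    simpa using (h2.const_mul (128/153)).const_add δ
  obtain ⟨n₁, hn₁⟩ := eventually_atTop.1
    (l2.eventually_lt l1 (by rw [hδ]; linarith : δ + 128 / 153 < 2 * S / 4000))
  refine ⟨δ, by rw [hδ]; linarith, max n₁ 4002, by omega, fun n hn N => ?_⟩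
  have hn1 : n₁ ≤ n := by omega
  have hn2 : 4002 ≤ n := by omega
  have key := (hn₁ n hn1).le
  have hnr : (4002:ℝ) ≤ n := by exact_mod_cast hn2
  have hn0 : (0:ℝ) < n := by linarith
  have hR := rhsCoef_tail (i := n) (by omega) N
  have hL := kern_sum_lower (m := n - 1) (by omega)
  rw [show n - 1 + 1 = n by omega] at hL
  refine le_trans ?_ hL
  have hm : ((n - 1 : ℕ) : ℝ) = (n:ℝ) - 1 := by rw [Nat.cast_sub (by omega)]; simp
  rw [hm]
  have e1 : ((n:ℝ) - 1) ^ 2 / ((n:ℝ) - 1) ^ κ₀ * (2 * (((n:ℝ) - 1) / 4000 - 1) * S) =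
      ((n:ℝ) - 1) ^ (-(9/8:ℝ)) * (2 * S * (1 / 4000 - 1 / ((n:ℝ) - 1))) := by
    have hp : (0:ℝ) < (n:ℝ) - 1 := by linarith
    have hne : ((n:ℝ) - 1) ^ κ₀ ≠ 0 := (Real.rpow_pos_of_pos hp _).ne'
    have hne2 : ((n:ℝ) - 1) ^ (9/8:ℝ) ≠ 0 := (Real.rpow_pos_of_pos hp _).ne'
    have e3 : ((n:ℝ) - 1) ^ κ₀ = ((n:ℝ) - 1) ^ 3 * ((n:ℝ) - 1) ^ (9/8:ℝ) := by
      rw [← Real.rpow_natCast _ 3, ← Real.rpow_add hp]; norm_num [κ₀]
    rw [e3, Real.rpow_neg hp.le]
    field_simp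
  rw [e1]
  have hmono : (n:ℝ) ^ (-(9/8:ℝ)) ≤ ((n:ℝ) - 1) ^ (-(9/8:ℝ)) :=
    Real.rpow_le_rpow_of_nonpos (by linarith) (by linarith) (by norm_num)
  have e2 : ((n:ℝ) - 2) ^ (-(9/8:ℝ)) =
      (n:ℝ) ^ (-(9/8:ℝ)) * ((n:ℝ) / ((n:ℝ) - 2)) ^ (9/8:ℝ) := by
    rw [Real.div_rpow hn0.le (by linarith), Real.rpow_neg (by linarith), Real.rpow_neg hn0.le]
    field_simp
  rw [e2] at hR
  have hpos : 0 ≤ (n:ℝ) ^ (-(9/8:ℝ)) := Real.rpow_nonneg hn0.le _
  have h5 : 0 ≤ 2 * S * (1 / 4000 - 1 / ((n:ℝ) - 1)) := by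
    have : (1:ℝ) / ((n:ℝ) - 1) ≤ 1 / 4000 := one_div_le_one_div_of_le (by norm_num) (by linarith)
    have hS0 : 0 ≤ S := div_nonneg (Nat.cast_nonneg _) (by norm_num)
    exact mul_nonneg (by linarith) (by linarith)
  have h6 := mul_le_mul_of_nonneg_left key hpos
  have h7 := mul_le_mul_of_nonneg_right hmono h5
  linarith

/-- The coefficient form of the bound. -/
theorem summable_gc (hA : U.AreaBound) :
    Summable fun n : ℕ => ‖U.gc n‖ ^ 2 * (n:ℝ) ^ (-(9/8:ℝ)) := by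
  obtain ⟨δ, hδ, n₀, hn₀, hgap⟩ := eventually_gap
  set C := ∑' j : ℕ, 1 / (j:ℝ) ^ (κ₀ - 2) with hC
  set F : ℕ → ℝ := fun n => ‖U.gc n‖ ^ 2 * (n:ℝ) ^ (-(9/8:ℝ)) with hF
  have hF0 : ∀ n, 0 ≤ F n := fun n =>
    mul_nonneg (sq_nonneg _) (Real.rpow_nonneg (Nat.cast_nonneg _) _)
  refine summable_of_sum_range_le (c := ∑ n ∈ range n₀, F n +
    (∑ n ∈ range n₀, ‖U.gc n‖ ^ 2 * (4 * C)) / δ) hF0 fun M => ?_
  set N := max M n₀
  refine (Finset.sum_le_sum_of_subset_of_nonneg (t := range (N + 1))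
    (range_subset_range.2 (by omega)) fun n _ _ => hF0 n).trans ?_
  rw [← Finset.sum_range_add_sum_Ico F (by omega : n₀ ≤ N + 1)]
  gcongr
  rw [le_div_iff₀ hδ]
  have h := weighted_diag hA N
  rw [← Finset.sum_range_add_sum_Ico (fun i => ‖U.gc i‖ ^ 2 * rhsCoef N i)
    (by omega : n₀ ≤ N + 1)] at h
  have h2 : ∑ n ∈ Ico n₀ (N + 1), ‖U.gc n‖ ^ 2 * ∑ j ∈ range n, kern j (n - 1 - j) ≤
      ∑ n ∈ Icc 3 N, ‖U.gc n‖ ^ 2 * ∑ j ∈ range n, kern j (n - 1 - j) :=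
    Finset.sum_le_sum_of_subset_of_nonneg
      (by intro n; simp only [Finset.mem_Ico, Finset.mem_Icc]; omega)
      fun n _ _ => mul_nonneg (sq_nonneg _) (Finset.sum_nonneg fun j _ => kern_nonneg _ _)
  have h3 : ∑ n ∈ Ico n₀ (N + 1),
      (δ * F n + 2 * (‖U.gc n‖ ^ 2 * rhsCoef N n)) ≤
      ∑ n ∈ Ico n₀ (N + 1), ‖U.gc n‖ ^ 2 * ∑ j ∈ range n, kern j (n - 1 - j) := by
    refine Finset.sum_le_sum fun n hn => ?_
    have := mul_le_mul_of_nonneg_left (hgap n (mem_Ico.1 hn).1 N) (sq_nonneg ‖U.gc n‖)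
    refine le_of_eq_of_le ?_ this
    simp only [hF]; ring
  rw [Finset.sum_add_distrib, ← Finset.mul_sum, ← Finset.mul_sum] at h3
  have h4 : ∑ i ∈ range n₀, ‖U.gc i‖ ^ 2 * rhsCoef N i ≤
      ∑ i ∈ range n₀, ‖U.gc i‖ ^ 2 * (2 * C) :=
    Finset.sum_le_sum fun i _ => mul_le_mul_of_nonneg_left (rhsCoef_const N i) (sq_nonneg _)
  have h5 : ∑ n ∈ range n₀, ‖U.gc n‖ ^ 2 * (4 * C) =
      2 * ∑ i ∈ range n₀, ‖U.gc i‖ ^ 2 * (2 * C) := by
    rw [Finset.mul_sum]; exact Finset.sum_congr rfl fun i _ => by ring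
  linarith

end Univ

end Vale.Agent.P142
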